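import Vale.Agent.P284.H205.K.Chg

/-!
# P284 (helper205), K3: algebra of `hn`, `Lam`, and their change under a linear map
-/

open scoped ContDiff Topology ComplexConjugate ComplexOrder ENNReal
open Filter Set MeasureTheory

noncomputable section

namespace Vale.Agent.P284.H205.K

open Vale.Agent.P272.K Vale.Agent.P284.H608.K

variable {n p : ℕ}

lemma ev_add (A B : Af n p) (s : Fin p → Fin n) : ev (A + B) s = ev A s + ev B s := rfl

lemma ev_smul (c : ℂ) (A : Af n p) (s : Fin p → Fin n) : ev (c • A) s = c * ev A s := rfl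

lemma ev_zero (s : Fin p → Fin n) : ev (0 : Af n p) s = 0 := rfl

lemma hn_add_left (w : Matrix (Fin n) (Fin n) ℂ) (A B C : Af n p) :
    hn w (A + B) C = hn w A C + hn w B C := by
  simp only [hn, ev_add, add_mul, Finset.sum_add_distrib, mul_add]

lemma hn_add_right (w : Matrix (Fin n) (Fin n) ℂ) (A B C : Af n p) :
    hn w A (B + C) = hn w A B + hn w A C := by
  simp only [hn, ev_add, map_add, mul_add, add_mul, Finset.sum_add_distrib]

lemma hn_smul_left (w : Matrix (Fin n) (Fin n) ℂ) (c : ℂ) (A B : Af n p) :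
    hn w (c • A) B = c * hn w A B := by
  simp only [hn, ev_smul, Finset.mul_sum]
  refine Finset.sum_congr rfl fun s _ => Finset.sum_congr rfl fun t _ => ?_
  ring

lemma hn_smul_right (w : Matrix (Fin n) (Fin n) ℂ) (c : ℂ) (A B : Af n p) :
    hn w A (c • B) = conj c * hn w A B := by
  simp only [hn, ev_smul, Finset.mul_sum, map_mul]
  refine Finset.sum_congr rfl fun s _ => Finset.sum_congr rfl fun t _ => ?_
  ring

lemma hn_zero_left (w : Matrix (Fin n) (Fin n) ℂ) (B : Af n p) : hn w 0 B = 0 := by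
  simp [hn, ev_zero]

lemma hn_zero_right (w : Matrix (Fin n) (Fin n) ℂ) (B : Af n p) : hn w B 0 = 0 := by
  simp [hn, ev_zero]

lemma hn_sum_left {ι : Type} (w : Matrix (Fin n) (Fin n) ℂ) (s : Finset ι) (A : ι → Af n p)
    (B : Af n p) : hn w (∑ i ∈ s, A i) B = ∑ i ∈ s, hn w (A i) B := by
  classical
  induction s using Finset.induction_on with
  | empty => simp [hn_zero_left]
  | insert a s ha ih => rw [Finset.sum_insert ha, Finset.sum_insert ha, hn_add_left, ih]

lemma hn_sum_right {ι : Type} (w : Matrix (Fin n) (Fin n) ℂ) (s : Finset ι) (A : ι → Af n p)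
    (B : Af n p) : hn w B (∑ i ∈ s, A i) = ∑ i ∈ s, hn w B (A i) := by
  classical
  induction s using Finset.induction_on with
  | empty => simp [hn_zero_right]
  | insert a s ha ih => rw [Finset.sum_insert ha, Finset.sum_insert ha, hn_add_right, ih]

lemma wdz_add (c : Fin n) (A B : Af n p) : wdz c (A + B) = wdz c A + wdz c B := by
  rw [wdz, wdz, wdz, ← ContinuousAlternatingMap.alternatizeUncurryFin_add]
  congr 1
  ext v w
  simp

lemma wdz_smul (c : Fin n) (r : ℂ) (A : Af n p) : wdz c (r • A) = r • wdz c A := by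
  rw [wdz, wdz, ← ContinuousAlternatingMap.alternatizeUncurryFin_smul]
  congr 1
  ext v w
  simp; ring

lemma wdz_zero (c : Fin n) : wdz c (0 : Af n p) = 0 := by
  have := wdz_add c (0 : Af n p) 0
  simpa using this

/-- the sesquilinear version of `Tn` -/
def Tn2 (w : Matrix (Fin n) (Fin n) ℂ) (T S : Fin n → Af n p) : ℂ :=
  ∑ b, ∑ b', w⁻¹ b b' * hn w (T b) (S b')

/-- the sesquilinear version of `Ad` -/
def Ad2 (w β : Matrix (Fin n) (Fin n) ℂ) (η τ : Af n p) : ℂ :=
  ∑ c, ∑ d, β c d * hn w (wdz c η) (wdz d τ)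

lemma Tn2_self (w : Matrix (Fin n) (Fin n) ℂ) (T : Fin n → Af n p) : Tn2 w T T = Tn w T := rfl

lemma Ad2_self (w β : Matrix (Fin n) (Fin n) ℂ) (η : Af n p) : Ad2 w β η η = Ad w β η := rfl

/-- the matrix of a linear map -/
def Jm (L : Cm n →L[ℂ] Cm n) : Matrix (Fin n) (Fin n) ℂ :=
  LinearMap.toMatrix' (L : Cm n →ₗ[ℂ] Cm n)

lemma Jm_apply (L : Cm n →L[ℂ] Cm n) (i j : Fin n) : Jm L i j = L (Pi.single j 1) i := by
  unfold Jm
  rw [LinearMap.toMatrix'_apply]
  congr 1

lemma L_single (L : Cm n →L[ℂ] Cm n) (j : Fin n) :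
    L (Pi.single j 1) = ∑ i, Jm L i j • (Pi.single i (1 : ℂ) : Cm n) := by
  conv_lhs => rw [vec_eq (L (Pi.single j 1))]
  exact Finset.sum_congr rfl fun i _ => by rw [Jm_apply]

lemma Jm_isUnit {L : Cm n →L[ℂ] Cm n} (h : Function.Bijective L) : IsUnit (Jm L).det := by
  unfold Jm
  rw [LinearMap.det_toMatrix']
  have := LinearEquiv.isUnit_det' (LinearEquiv.ofBijective (L : Cm n →ₗ[ℂ] Cm n) h)
  exact this

/-- `J̄ w⁻¹ Jᵀ = w'⁻¹` -/
lemma inv_chg {J w' : Matrix (Fin n) (Fin n) ℂ} (hJ : IsUnit J.det) :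
    J.map (starRingEnd ℂ) * (J.transpose * w' * J.map (starRingEnd ℂ))⁻¹ * J.transpose = w'⁻¹ := by
  rw [inv_form hJ]
  have h1 : (J.transpose)⁻¹ * J.transpose = 1 :=
    Matrix.nonsing_inv_mul _ (by rw [Matrix.det_transpose]; exact hJ)
  calc _ = (J.map (starRingEnd ℂ) * (J.map (starRingEnd ℂ))⁻¹) * w'⁻¹ *
        ((J.transpose)⁻¹ * J.transpose) := by simp only [Matrix.mul_assoc]
    _ = _ := by rw [h1, Matrix.mul_nonsing_inv _ (isUnit_conj hJ), Matrix.one_mul, Matrix.mul_one]

lemma inv_chg_apply {J w' : Matrix (Fin n) (Fin n) ℂ} (hJ : IsUnit J.det) (c d : Fin n) :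
    ∑ b, ∑ a, conj (J c b) * (J.transpose * w' * J.map (starRingEnd ℂ))⁻¹ b a * J d a =
      w'⁻¹ c d := by
  conv_rhs => rw [← inv_chg (w' := w') hJ]
  simp only [Matrix.mul_apply (M := J.map (starRingEnd ℂ) *
    (J.transpose * w' * J.map (starRingEnd ℂ))⁻¹) (N := J.transpose),
    Matrix.mul_apply (M := J.map (starRingEnd ℂ)), Matrix.transpose_apply (M := J),
    Matrix.map_apply, Finset.sum_mul]
  rw [Finset.sum_comm]


section chg

variable {w w' : Matrix (Fin n) (Fin n) ℂ} {L : Cm n →L[ℂ] Cm n}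

lemma hn_chg (h1 : K1Stmt) (hw' : w'.PosDef) (hL : Function.Bijective L)
    (hw : w = (Jm L).transpose * w' * (Jm L).map (starRingEnd ℂ)) (A B : Af n p) :
    hn w (A.compContinuousLinearMap L) (B.compContinuousLinearMap L) = hn w' A B := by
  rw [hw]; exact h1.pull n p w' L hw' hL A B

/-- the antilinear components change with `J̄` -/
def Bch (L : Cm n →L[ℂ] Cm n) (a : ℂ) (T : Fin n → Af n p) (b : Fin n) : Af n p :=
  a • ∑ c, conj (Jm L c b) • (T c).compContinuousLinearMap L

lemma sum4 {M : Type} [AddCommMonoid M] (f : Fin n → Fin n → Fin n → Fin n → M) :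
    ∑ b, ∑ b', ∑ c, ∑ d, f b b' c d = ∑ c, ∑ d, ∑ b, ∑ b', f b b' c d := by
  calc _ = ∑ b, ∑ c, ∑ b', ∑ d, f b b' c d := Finset.sum_congr rfl fun b _ => Finset.sum_comm
    _ = ∑ c, ∑ b, ∑ b', ∑ d, f b b' c d := Finset.sum_comm
    _ = ∑ c, ∑ b, ∑ d, ∑ b', f b b' c d :=
        Finset.sum_congr rfl fun c _ => Finset.sum_congr rfl fun b _ => Finset.sum_comm
    _ = _ := Finset.sum_congr rfl fun c _ => Finset.sum_comm

lemma hn_Bch (h1 : K1Stmt) (hw' : w'.PosDef) (hL : Function.Bijective L)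
    (hw : w = (Jm L).transpose * w' * (Jm L).map (starRingEnd ℂ)) (a : ℂ) (T S : Fin n → Af n p)
    (b b' : Fin n) :
    hn w (Bch L a T b) (Bch L a S b') =
      a * conj a * ∑ c, ∑ d, conj (Jm L c b) * Jm L d b' * hn w' (T c) (S d) := by
  unfold Bch
  rw [hn_smul_left, hn_smul_right, hn_sum_left, ← mul_assoc]
  congr 1
  refine Finset.sum_congr rfl fun c _ => ?_
  rw [hn_sum_right]
  refine Finset.sum_congr rfl fun d _ => ?_
  rw [hn_smul_left, hn_smul_right, hn_chg h1 hw' hL hw, Complex.conj_conj]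
  ring

theorem Tn2_chg (h1 : K1Stmt) (hw' : w'.PosDef) (hL : Function.Bijective L)
    (hw : w = (Jm L).transpose * w' * (Jm L).map (starRingEnd ℂ)) (a : ℂ) (T S : Fin n → Af n p) :
    Tn2 w (Bch L a T) (Bch L a S) = a * conj a * Tn2 w' T S := by
  unfold Tn2
  have h2 : ∀ c d, w'⁻¹ c d = ∑ b, ∑ b', conj (Jm L c b) * w⁻¹ b b' * Jm L d b' := by
    intro c d; rw [hw, inv_chg_apply (Jm_isUnit hL)]
  simp only [h2, hn_Bch h1 hw' hL hw, Finset.mul_sum, Finset.sum_mul]
  rw [sum4]
  refine Finset.sum_congr rfl fun c _ => Finset.sum_congr rfl fun d _ =>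
    Finset.sum_congr rfl fun b _ => Finset.sum_congr rfl fun b' _ => ?_
  ring

lemma proj_comp (L : Cm n →L[ℂ] Cm n) (c : Fin n) :
    (ContinuousLinearMap.proj (R := ℂ) (φ := fun _ : Fin n => ℂ) c).comp L =
      ∑ b, Jm L c b • ContinuousLinearMap.proj (R := ℂ) (φ := fun _ : Fin n => ℂ) b := by
  refine clm_ext fun a => ?_
  simp only [ContinuousLinearMap.comp_apply, ContinuousLinearMap.proj_apply, sum_apply, smul_apply,
    smul_eq_mul]
  rw [Finset.sum_eq_single a, Jm_apply]
  · simp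
  · intro b _ hb; simp [hb]
  · simp

open ContinuousAlternatingMap in
lemma wdz_comp (L : Cm n →L[ℂ] Cm n) (c : Fin n) (A : Af n p) :
    (wdz c A).compContinuousLinearMap L = ∑ b, Jm L c b • wdz b (A.compContinuousLinearMap L) := by
  unfold wdz
  rw [← alt_comp]
  simp only [← alternatizeUncurryFinCLM_apply, ← map_smul]
  rw [← _root_.map_sum]
  congr 1
  ext1 v
  have h1 := DFunLike.congr_fun (proj_comp L c) v
  simp only [ContinuousLinearMap.comp_apply, ContinuousLinearMap.proj_apply, _root_.sum_apply,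
    _root_.smul_apply, smul_eq_mul] at h1
  simp only [ContinuousLinearMap.comp_apply, ContinuousLinearMap.proj_apply, _root_.sum_apply,
    _root_.smul_apply, ContinuousLinearMap.smulRight_apply, smul_smul,
    ← Finset.sum_smul, ← h1, map_smul, compContinuousLinearMapCLM_apply]

theorem Ad2_chg (h1 : K1Stmt) (hw' : w'.PosDef) (hL : Function.Bijective L)
    (hw : w = (Jm L).transpose * w' * (Jm L).map (starRingEnd ℂ)) {β β' : Matrix (Fin n) (Fin n) ℂ}
    (hβ : β = (Jm L).transpose * β' * (Jm L).map (starRingEnd ℂ)) (a b : ℂ) (A B : Af n p) :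
    Ad2 w β (a • A.compContinuousLinearMap L) (b • B.compContinuousLinearMap L) =
      a * conj b * Ad2 w' β' A B := by
  unfold Ad2
  have h2 : ∀ c d, hn w' (wdz c A) (wdz d B) = ∑ c', ∑ d', Jm L c c' * conj (Jm L d d') *
      hn w (wdz c' (A.compContinuousLinearMap L)) (wdz d' (B.compContinuousLinearMap L)) := by
    intro c d
    rw [← hn_chg h1 hw' hL hw, wdz_comp, wdz_comp, hn_sum_left]
    refine Finset.sum_congr rfl fun c' _ => ?_
    rw [hn_sum_right]
    refine Finset.sum_congr rfl fun d' _ => ?_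
    rw [hn_smul_left, hn_smul_right]; ring
  have h3 : ∀ c d, β c d = ∑ c', ∑ d', Jm L c' c * β' c' d' * conj (Jm L d' d) := by
    intro c d
    rw [hβ]
    simp only [Matrix.mul_apply, Matrix.transpose_apply, Matrix.map_apply, Finset.sum_mul]
    rw [Finset.sum_comm]
  simp only [h2, h3, wdz_smul, hn_smul_left, hn_smul_right, Finset.mul_sum, Finset.sum_mul]
  rw [sum4]
  refine Finset.sum_congr rfl fun c _ => Finset.sum_congr rfl fun d _ =>
    Finset.sum_congr rfl fun b _ => Finset.sum_congr rfl fun b' _ => ?_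
  ring

lemma Lam_apply (w : Matrix (Fin n) (Fin n) ℂ) (T : Fin n → Af n (p + 1)) (v : Fin p → Cm n) :
    Lam w T v = ∑ a, ∑ b, w⁻¹ b a * (T b).curryLeft (Pi.single a 1) v := by
  simp only [Lam, ContinuousAlternatingMap.sum_apply, ContinuousAlternatingMap.smul_apply,
    smul_eq_mul]

lemma curryLeft_Bch (a : ℂ) (T : Fin n → Af n (p + 1)) (b x : Fin n) (v : Fin p → Cm n) :
    (Bch L a T b).curryLeft (Pi.single x 1) v =
      a * ∑ c, ∑ d, conj (Jm L c b) * Jm L d x * (T c).curryLeft (Pi.single d 1) (L ∘ v) := by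
  have h3 : ∀ (A : Af n (p + 1)), (A.compContinuousLinearMap L) (Matrix.vecCons (Pi.single x 1) v) =
      ∑ d, Jm L d x * A.curryLeft (Pi.single d 1) (L ∘ v) := by
    intro A
    have : (A.compContinuousLinearMap L) (Matrix.vecCons (Pi.single x 1) v) =
        (A.curryLeft (L (Pi.single x 1))) (L ∘ v) := by
      simp only [ContinuousAlternatingMap.curryLeft_apply_apply,
        ContinuousAlternatingMap.compContinuousLinearMap_apply]
      congr 1
      funext i
      refine Fin.cases ?_ (fun j => ?_) i <;> simp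
    rw [this, L_single, map_sum]
    simp only [ContinuousAlternatingMap.sum_apply, map_smul, ContinuousAlternatingMap.smul_apply,
      smul_eq_mul]
  rw [ContinuousAlternatingMap.curryLeft_apply_apply]
  simp only [Bch, ContinuousAlternatingMap.sum_apply, ContinuousAlternatingMap.smul_apply,
    smul_eq_mul, h3, Finset.mul_sum]
  refine Finset.sum_congr rfl fun c _ => Finset.sum_congr rfl fun d _ => ?_
  ring

theorem Lam_chg (hL : Function.Bijective L)
    (hw : w = (Jm L).transpose * w' * (Jm L).map (starRingEnd ℂ)) (a : ℂ)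
    (T : Fin n → Af n (p + 1)) :
    Lam w (Bch L a T) = a • (Lam w' T).compContinuousLinearMap L := by
  have h2 : ∀ c d, w'⁻¹ c d = ∑ b, ∑ b', conj (Jm L c b) * w⁻¹ b b' * Jm L d b' := by
    intro c d; rw [hw, inv_chg_apply (Jm_isUnit hL)]
  ext v
  rw [Lam_apply]
  have h4 : (a • (Lam w' T).compContinuousLinearMap L) v =
      a * ∑ d, ∑ c, w'⁻¹ c d * (T c).curryLeft (Pi.single d 1) (L ∘ v) := by
    rw [← Lam_apply]; rfl
  rw [h4]
  simp only [h2, curryLeft_Bch, Finset.mul_sum, Finset.sum_mul]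
  rw [sum4, Finset.sum_comm]
  refine Finset.sum_congr rfl fun d _ => Finset.sum_congr rfl fun c _ => ?_
  rw [Finset.sum_comm]
  refine Finset.sum_congr rfl fun b _ => Finset.sum_congr rfl fun b' _ => ?_
  ring

end chg

section loc

/-- **change of chart and frame for `∂̄`** -/
theorem dbV_chg {F : Cm n → Cm n} {a : Cm n → ℂ} {η η' : Cm n → Af n p}
    {z : Cm n} (hF : AnalyticAt ℂ F z) (ha : AnalyticAt ℂ a z)
    (hη' : DifferentiableAt ℝ η' (F z))
    (hη : η =ᶠ[𝓝 z] fun y => a y • (η' (F y)).compContinuousLinearMap (fderiv ℂ F y)) :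
    (fun b => dbV b η z) = Bch (fderiv ℂ F z) (a z) fun c => dbV c η' (F z) := by
  set L := fderiv ℂ F z with hL
  have hF1 : HasFDerivAt F L z := hF.differentiableAt.hasFDerivAt
  have ha1 : HasFDerivAt a (fderiv ℂ a z) z := ha.differentiableAt.hasFDerivAt
  have hF2 : HasFDerivAt (fderiv ℂ F) (fderiv ℂ (fderiv ℂ F) z) z :=
    hF.fderiv.differentiableAt.hasFDerivAt
  have h1 := (((hasW_of_diff hη').comp_holo hF1).compCLM hF2)
  have h2 := ((HasW.of_holo ha1).smul h1).congr hη
  funext b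
  rw [h2.dbV]
  have h3 : cjL L (Pi.single b 1) = ∑ c, conj (Jm L c b) • (Pi.single c (1 : ℂ) : Cm n) := by
    rw [cjL_apply, cjm_single, map_one, L_single, map_sum]
    refine Finset.sum_congr rfl fun c _ => ?_
    rw [cjm_smul, cjm_single, map_one]
  simp only [_root_.add_apply, _root_.smul_apply, ContinuousLinearMap.smulRight_apply,
    _root_.zero_apply, zero_smul, zero_add, ContinuousLinearMap.comp_apply, ← hL]
  rw [h3, map_sum, map_sum]
  unfold Bch
  congr 1
  refine Finset.sum_congr rfl fun c _ => ?_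
  rw [map_smul, map_smul, ← (hasW_of_diff hη').dbV c]
  rfl

/-- **change of chart and frame for `S`** -/
theorem SL_chg {F : Cm n → Cm n} {a : Cm n → ℂ} {w w' : Cm n → Matrix (Fin n) (Fin n) ℂ}
    {η η' : Cm n → Af n (p + 1)}
    {z : Cm n} (hF : AnalyticAt ℂ F z) (ha : AnalyticAt ℂ a z)
    (hη' : DifferentiableAt ℝ η' (F z))
    (hη : η =ᶠ[𝓝 z] fun y => a y • (η' (F y)).compContinuousLinearMap (fderiv ℂ F y))
    (hL : Function.Bijective (fderiv ℂ F z))
    (hw : w z = (Jm (fderiv ℂ F z)).transpose * w' (F z) *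
      (Jm (fderiv ℂ F z)).map (starRingEnd ℂ)) :
    SL w η z = a z • (SL w' η' (F z)).compContinuousLinearMap (fderiv ℂ F z) := by
  unfold SL
  rw [dbV_chg hF ha hη' hη, Lam_chg hL hw]
  ext v; simp

end loc

end Vale.Agent.P284.H205.K
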