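import Vale.Agent.P284.H205.K.Wd

/-!
# P284 (helper205), K3: change of the chart and of the frame, local formulas
-/

open scoped ContDiff Topology ComplexConjugate ComplexOrder ENNReal
open Filter Set MeasureTheory

noncomputable section

namespace Vale.Agent.P284.H205.K

open Vale.Agent.P272.K Vale.Agent.P284.H608.K

variable {n p : ℕ} {V : Type} [NormedAddCommGroup V] [NormedSpace ℂ V]

lemma dz_eq_dzV (a : Fin n) (f : Cm n → ℂ) (z : Cm n) : dz a f z = dzV a f z := by
  simp only [dz, dzV, smul_eq_mul]; ring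

lemma dhL_eq (φ : Cm n → ℝ) (η : Cm n → Af n p) (z : Cm n) :
    dhL φ η z = ContinuousAlternatingMap.alternatizeUncurryFin
      (pL η z - (pL (fun y => (φ y : ℂ)) z).smulRight (η z)) := by
  unfold dhL
  congr 1
  ext1 v
  rw [sub_apply, ContinuousLinearMap.smulRight_apply, pL_apply, pL_apply]
  simp only [dz_eq_dzV, sum_apply, ContinuousLinearMap.smulRight_apply,
    ContinuousLinearMap.proj_apply, smul_sub, Finset.sum_sub_distrib, Finset.sum_smul, smul_smul,
    smul_eq_mul]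

open ContinuousAlternatingMap in
lemma alt_comp (L : Cm n →L[ℂ] Cm n) (C : Cm n →L[ℂ] Af n p) :
    alternatizeUncurryFin (compContinuousLinearMapCLM L ∘L C ∘L L) =
      (alternatizeUncurryFin C).compContinuousLinearMap L := by
  ext v
  simp +unfoldPartialApp [alternatizeUncurryFin_apply, Fin.removeNth, Function.comp_def]

lemma HasW.holo_comp {f : Cm n → ℂ} {P Q : Cm n →L[ℂ] ℂ} {z : Cm n} {g : ℂ → ℂ} {g' : ℂ}
    (h : HasW f P Q z) (hg : HasDerivAt g g' (f z)) :
    HasW (fun y => g (f y)) (g' • P) (g' • Q) z := by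
  have h1 : HasFDerivAt g (ContinuousLinearMap.toSpanSingleton ℂ g') (f z) := hg.hasFDerivAt
  have := HasFDerivAt.comp z (h1.restrictScalars ℝ) h
  refine HasFDerivAt.congr_fderiv this ?_
  ext v; simp; ring

lemma HasW.exp_neg {φ : Cm n → ℝ} {P Q : Cm n →L[ℂ] ℂ} {z : Cm n}
    (h : HasW (fun y => (φ y : ℂ)) P Q z) :
    HasW (fun y => ((Real.exp (-φ y) : ℝ) : ℂ)) (-(Real.exp (-φ z) : ℂ) • P)
      (-(Real.exp (-φ z) : ℂ) • Q) z := by
  have hg : HasDerivAt (fun t : ℂ => Complex.exp (-t)) (-(Real.exp (-φ z) : ℂ)) ((φ z : ℝ) : ℂ) := by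
    have := (Complex.hasDerivAt_exp (-((φ z : ℝ) : ℂ))).comp ((φ z : ℝ) : ℂ) (hasDerivAt_neg _)
    refine HasDerivAt.congr_deriv this ?_
    push_cast; ring
  have := h.holo_comp hg
  refine this.congr (Eventually.of_forall fun y => ?_)
  push_cast; rfl

lemma HasW.conj_holo {a : Cm n → ℂ} {a' : Cm n →L[ℂ] ℂ} {z : Cm n} (h : HasFDerivAt a a' z) :
    ∃ Q, HasW (fun y => conj (a y)) 0 Q z := by
  refine ⟨{ toFun := fun v => conj (a' (cjm n v))
            map_add' := fun u v => by simp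
            map_smul' := fun c v => by rw [cjm_smul, map_smul]; simp
            cont := Complex.continuous_conj.comp (a'.continuous.comp (cjm n).continuous) }, ?_⟩
  have := (Complex.conjCLE : ℂ →L[ℝ] ℂ).hasFDerivAt.comp z (h.restrictScalars ℝ)
  refine HasFDerivAt.congr_fderiv this ?_
  ext v
  show conj (a' v) = (0 : Cm n →L[ℂ] ℂ) v + conj (a' (cjm n (cjm n v)))
  simp

/-- the connection form -/
lemma phi_chg {F : Cm n → Cm n} {L : Cm n →L[ℂ] Cm n} {a : Cm n → ℂ} {a' : Cm n →L[ℂ] ℂ}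
    {φ φ' : Cm n → ℝ} {z : Cm n}
    (hF : HasFDerivAt F L z) (ha : HasFDerivAt a a' z) (ha0 : a z ≠ 0)
    (hφ : DifferentiableAt ℝ φ z) (hφ' : DifferentiableAt ℝ φ' (F z))
    (h : ∀ᶠ y in 𝓝 z, Real.exp (-φ y) * ‖a y‖ ^ 2 = Real.exp (-φ' (F y))) :
    a z • pL (fun y => (φ y : ℂ)) z =
      a' + a z • (pL (fun y => (φ' y : ℂ)) (F z)).comp L := by
  have h1 : HasW (fun y => (φ y : ℂ)) _ _ z :=
    hasW_of_diff (Complex.ofRealCLM.differentiableAt.comp z hφ)
  have h2 : HasW (fun y => (φ' y : ℂ)) _ _ (F z) :=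
    hasW_of_diff (Complex.ofRealCLM.differentiableAt.comp (F z) hφ')
  obtain ⟨Q, hQ⟩ := HasW.conj_holo ha
  have h3 := h1.exp_neg.smul ((HasW.of_holo ha).smul hQ)
  have h4 := h2.exp_neg.comp_holo hF
  have h5 : (fun y => ((Real.exp (-φ y) : ℝ) : ℂ) • (a y • conj (a y))) =ᶠ[𝓝 z]
      fun y => ((Real.exp (-φ' (F y)) : ℝ) : ℂ) := by
    filter_upwards [h] with y hy
    rw [← hy, smul_eq_mul, smul_eq_mul, Complex.mul_conj, Complex.normSq_eq_norm_sq]
    push_cast; rfl
  have h6 := (h4.congr h5).pL_eq.symm.trans h3.pL_eq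
  have h7 := h.self_of_nhds
  have h8 : ((Real.exp (-φ' (F z)) : ℝ) : ℂ) =
      (Real.exp (-φ z) : ℝ) * (a z * conj (a z)) := by
    rw [← h7, Complex.mul_conj, Complex.normSq_eq_norm_sq]
    push_cast; rfl
  have hE : ((Real.exp (-φ z) : ℝ) : ℂ) ≠ 0 := by
    exact_mod_cast (Real.exp_pos _).ne'
  have hc : conj (a z) ≠ 0 := by simpa using ha0
  ext v
  have h9 := DFunLike.congr_fun h6 v
  simp only [ContinuousLinearMap.comp_apply, smul_apply, smul_eq_mul, add_apply,
    ContinuousLinearMap.smulRight_apply, zero_apply, mul_zero, add_zero] at h9 ⊢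
  rw [h8] at h9
  refine mul_left_cancel₀ (mul_ne_zero hE hc) ?_
  linear_combination h9

section dh

open ContinuousAlternatingMap

/-- **change of chart and frame for `∂_h`** -/
theorem dhL_chg {F : Cm n → Cm n} {a : Cm n → ℂ} {φ φ' : Cm n → ℝ} {η η' : Cm n → Af n p}
    {z : Cm n} (hF : AnalyticAt ℂ F z) (ha : AnalyticAt ℂ a z) (ha0 : a z ≠ 0)
    (hφ : DifferentiableAt ℝ φ z) (hφ' : DifferentiableAt ℝ φ' (F z))
    (h : ∀ᶠ y in 𝓝 z, Real.exp (-φ y) * ‖a y‖ ^ 2 = Real.exp (-φ' (F y)))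
    (hη' : DifferentiableAt ℝ η' (F z))
    (hη : η =ᶠ[𝓝 z] fun y => a y • (η' (F y)).compContinuousLinearMap (fderiv ℂ F y)) :
    dhL φ η z = a z • (dhL φ' η' (F z)).compContinuousLinearMap (fderiv ℂ F z) := by
  set L := fderiv ℂ F z with hL
  have hF1 : HasFDerivAt F L z := hF.differentiableAt.hasFDerivAt
  have ha1 : HasFDerivAt a (fderiv ℂ a z) z := ha.differentiableAt.hasFDerivAt
  have hF2 : HasFDerivAt (fderiv ℂ F) (fderiv ℂ (fderiv ℂ F) z) z :=
    hF.fderiv.differentiableAt.hasFDerivAt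
  have h1 := (((hasW_of_diff hη').comp_holo hF1).compCLM hF2)
  have h2 := ((HasW.of_holo ha1).smul h1).congr hη
  have hph := phi_chg hF1 ha1 ha0 hφ hφ' h
  have hz : η z = a z • (η' (F z)).compContinuousLinearMap L := hη.self_of_nhds
  have hsym : ∀ x y, fderiv ℂ (fderiv ℂ F) z x y = fderiv ℂ (fderiv ℂ F) z y x := by
    have := (hF.contDiffAt (n := ω)).isSymmSndFDerivAt (by simp)
    intro x y; exact this x y
  rw [dhL_eq, dhL_eq, h2.pL_eq, hz, ← alt_comp]
  have e1 : (pL (fun y => (φ y : ℂ)) z).smulRight (a z • (η' (F z)).compContinuousLinearMap L) =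
      (a z • pL (fun y => (φ y : ℂ)) z).smulRight ((η' (F z)).compContinuousLinearMap L) := by
    ext1 v; simp [smul_smul, mul_comm]
  rw [e1, hph]
  have e2 : ((fderiv ℂ a z).smulRight ((η' (F z)).compContinuousLinearMap (fderiv ℂ F z)) +
      a z • (compContinuousLinearMapCLM (fderiv ℂ F z) ∘L (pL η' (F z)).comp L +
        (η' (F z)).fderivCompContinuousLinearMap (fderiv ℂ F z) ∘L fderiv ℂ (fderiv ℂ F) z)) -
      (fderiv ℂ a z + a z • (pL (fun y => (φ' y : ℂ)) (F z)).comp L).smulRight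
        ((η' (F z)).compContinuousLinearMap L) =
      a z • (compContinuousLinearMapCLM L ∘L
        (pL η' (F z) - (pL (fun y => (φ' y : ℂ)) (F z)).smulRight (η' (F z))) ∘L L) +
      a z • ((η' (F z)).fderivCompContinuousLinearMap L ∘L fderiv ℂ (fderiv ℂ F) z) := by
    ext v w
    simp only [← hL, _root_.add_apply, _root_.sub_apply, _root_.smul_apply,
      ContinuousLinearMap.smulRight_apply, map_sub, map_smul,
      ContinuousAlternatingMap.add_apply, ContinuousAlternatingMap.sub_apply,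
      ContinuousAlternatingMap.smul_apply,
      ContinuousLinearMap.comp_apply, compContinuousLinearMapCLM_apply, smul_eq_mul,
      ContinuousAlternatingMap.compContinuousLinearMap_apply]
    ring
  rw [e2, alternatizeUncurryFin_add, alternatizeUncurryFin_smul, alternatizeUncurryFin_smul,
    alternatizeUncurryFin_fderivCompContinuousLinearMap_eq_zero _ _ hsym, smul_zero, add_zero]

end dh

end Vale.Agent.P284.H205.K
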