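import Vale.Agent.P284.H205.K.Tr

/-!
# P284 (helper205), K3: densities in any chart; `∂_h` and `S` of forms; smoothness
-/

open scoped ContDiff Topology ComplexConjugate ComplexOrder ENNReal
open Filter Set MeasureTheory

noncomputable section

namespace Vale.Agent.P284.H205.K

open Vale.Agent.P272.K Vale.Agent.P284.H608.K

variable {n p : ℕ} {M : Type} [TopologicalSpace M] [MeasurableSpace M] (K : KA n M)

/-- the density of `⟨∂̄η, ∂̄τ⟩` -/
def tn2 (η τ : K.Fm p) (x : M) : ℂ :=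
  (Real.exp (-K.φ (K.ix x) (K.e (K.ix x) x)) : ℂ) *
    Tn2 (K.w (K.ix x) (K.e (K.ix x) x)) (fun b => dbV b (η (K.ix x)) (K.e (K.ix x) x))
      (fun b => dbV b (τ (K.ix x)) (K.e (K.ix x) x))

/-- the density of the curvature term -/
def ad2 (η τ : K.Fm p) (x : M) : ℂ :=
  (Real.exp (-K.φ (K.ix x) (K.e (K.ix x) x)) : ℂ) *
    Ad2 (K.w (K.ix x) (K.e (K.ix x) x)) (cHess (K.φ (K.ix x)) (K.e (K.ix x) x))
      (η (K.ix x) (K.e (K.ix x) x)) (τ (K.ix x) (K.e (K.ix x) x))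

variable {K} {i j : K.I} {x : M}

lemma ix_mem (x : M) : x ∈ (K.e (K.ix x)).source := (K.cover x).choose_spec

/-- the product in two charts -/
lemma dn_two (h1 : K1Stmt) {η ζ : K.Fm p} (hη : K.IsForm η) (hζ : K.IsForm ζ)
    (hi : x ∈ (K.e i).source) (hj : x ∈ (K.e j).source) :
    (Real.exp (-K.φ i (K.e i x)) : ℂ) * hn (K.w i (K.e i x)) (η i (K.e i x)) (ζ i (K.e i x)) =
      (Real.exp (-K.φ j (K.e j x)) : ℂ) *
        hn (K.w j (K.e j x)) (η j (K.e j x)) (ζ j (K.e j x)) := by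
  rw [η_at hη hi hj, η_at hζ hi hj, hn_smul_left, hn_smul_right,
    hn_chg h1 (wp hj) (trL_bij hi hj) (w_tr hi hj), ← exp_tr hi hj]
  ring

theorem dn_eq (h1 : K1Stmt) {η ζ : K.Fm p} (hη : K.IsForm η) (hζ : K.IsForm ζ)
    (hi : x ∈ (K.e i).source) :
    K.dn η ζ x = (Real.exp (-K.φ i (K.e i x)) : ℂ) *
      hn (K.w i (K.e i x)) (η i (K.e i x)) (ζ i (K.e i x)) :=
  dn_two h1 hη hζ (ix_mem x) hi

lemma dbV_tr {η : K.Fm p} (hη : K.IsForm η) (hs : K.Smooth η) (hi : x ∈ (K.e i).source)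
    (hj : x ∈ (K.e j).source) :
    (fun b => dbV b (η i) (K.e i x)) = Bch (trL K i j x) (K.a i j (K.e i x))
      fun c => dbV c (η j) (K.e j x) := by
  have := dbV_chg (η := η i) (η' := η j) (tr_an hi hj) (a_an hi hj)
    (by rw [tr_apply hi]
        exact (hs j _ ((K.e j).map_source hj)).differentiableAt (by simp)) (η_tr hη hi hj)
  rw [tr_apply hi] at this
  exact this

theorem tn2_eq (h1 : K1Stmt) {η ζ : K.Fm p} (hη : K.IsForm η) (hηs : K.Smooth η)
    (hζ : K.IsForm ζ) (hζs : K.Smooth ζ) (hi : x ∈ (K.e i).source) :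
    tn2 K η ζ x = (Real.exp (-K.φ i (K.e i x)) : ℂ) * Tn2 (K.w i (K.e i x))
      (fun b => dbV b (η i) (K.e i x)) (fun b => dbV b (ζ i) (K.e i x)) := by
  unfold tn2
  have hj : x ∈ (K.e (K.ix x)).source := ix_mem x
  rw [dbV_tr hη hηs hj hi, dbV_tr hζ hζs hj hi,
    Tn2_chg h1 (wp hi) (trL_bij hj hi) (w_tr hj hi), ← exp_tr hj hi]
  ring

theorem ad2_eq (h1 : K1Stmt) {η ζ : K.Fm p} (hη : K.IsForm η)
    (hζ : K.IsForm ζ) (hi : x ∈ (K.e i).source) :
    ad2 K η ζ x = (Real.exp (-K.φ i (K.e i x)) : ℂ) * Ad2 (K.w i (K.e i x))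
      (cHess (K.φ i) (K.e i x)) (η i (K.e i x)) (ζ i (K.e i x)) := by
  unfold ad2
  have hj : x ∈ (K.e (K.ix x)).source := ix_mem x
  rw [η_at hη hj hi, η_at hζ hj hi,
    Ad2_chg h1 (wp hi) (trL_bij hj hi) (w_tr hj hi) (cHess_tr hj hi), ← exp_tr hj hi]
  ring

lemma dT_tn2 (η : K.Fm p) (x : M) : K.dT η x = (tn2 K η η x).re := by
  unfold KA.dT tn2
  rw [Complex.re_ofReal_mul]; rfl

lemma dA_ad2 (η : K.Fm p) (x : M) : K.dA η x = (ad2 K η η x).re := by
  unfold KA.dA ad2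
  rw [Complex.re_ofReal_mul]; rfl

theorem dT_eq (h1 : K1Stmt) {η : K.Fm p} (hη : K.IsForm η) (hηs : K.Smooth η)
    (hi : x ∈ (K.e i).source) :
    K.dT η x = Real.exp (-K.φ i (K.e i x)) *
      (Tn (K.w i (K.e i x)) fun b => dbV b (η i) (K.e i x)).re := by
  rw [dT_tn2, tn2_eq h1 hη hηs hη hηs hi, Complex.re_ofReal_mul, Tn2_self]

theorem dA_eq (h1 : K1Stmt) {η : K.Fm p} (hη : K.IsForm η) (hi : x ∈ (K.e i).source) :
    K.dA η x = Real.exp (-K.φ i (K.e i x)) *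
      (Ad (K.w i (K.e i x)) (cHess (K.φ i) (K.e i x)) (η i (K.e i x))).re := by
  rw [dA_ad2, ad2_eq h1 hη hη hi, Complex.re_ofReal_mul, Ad2_self]

/-! ### smoothness of local expressions -/

section sm

variable {V : Type} [NormedAddCommGroup V] [NormedSpace ℂ V] {z : Cm n} {m : WithTop ℕ∞}

lemma clm_sm {W : Type} [NormedAddCommGroup W] [NormedSpace ℂ W] (Λ : V →L[ℂ] W) {f : Cm n → V}
    (h : ContDiffAt ℝ m f z) : ContDiffAt ℝ m (fun y => Λ (f y)) z :=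
  (Λ.restrictScalars ℝ).contDiff.contDiffAt.comp z h

lemma dzV_sm {η : Cm n → V} (h : ContDiffAt ℝ ∞ η z) (a : Fin n) :
    ContDiffAt ℝ ∞ (dzV a η) z := by
  have h1 : ContDiffAt ℝ ∞ (fderiv ℝ η) z := h.fderiv_right (m := ∞) (by simp)
  exact ((h1.clm_apply contDiffAt_const).sub
    ((h1.clm_apply contDiffAt_const).const_smul Complex.I)).const_smul (2 : ℂ)⁻¹

lemma dbV_sm {η : Cm n → V} (h : ContDiffAt ℝ ∞ η z) (a : Fin n) :
    ContDiffAt ℝ ∞ (dbV a η) z := by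
  have h1 : ContDiffAt ℝ ∞ (fderiv ℝ η) z := h.fderiv_right (m := ∞) (by simp)
  exact ((h1.clm_apply contDiffAt_const).add
    ((h1.clm_apply contDiffAt_const).const_smul Complex.I)).const_smul (2 : ℂ)⁻¹

lemma ev_sm {η : Cm n → Af n p} (h : ContDiffAt ℝ m η z) (s : Fin p → Fin n) :
    ContDiffAt ℝ m (fun y => ev (η y) s) z := by
  have := ((ContinuousAlternatingMap.apply ℂ (Cm n) ℂ
    (fun i => (Pi.single (s i) 1 : Cm n))).restrictScalars ℝ).contDiff.contDiffAt.comp z h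
  exact this

lemma hn_sm {w : Cm n → Matrix (Fin n) (Fin n) ℂ} (hw : ∀ j k, ContDiffAt ℝ m (fun y => w y j k) z)
    (h0 : (w z).det ≠ 0) {η ζ : Cm n → Af n p} (hη : ContDiffAt ℝ m η z)
    (hζ : ContDiffAt ℝ m ζ z) : ContDiffAt ℝ m (fun y => hn (w y) (η y) (ζ y)) z := by
  unfold hn
  refine contDiffAt_const.mul (ContDiffAt.sum fun s _ => ContDiffAt.sum fun t _ => ?_)
  refine ((ev_sm hη s).mul ?_).mul (contDiffAt_prod fun k _ => contDiffAt_inv hw h0 _ _)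
  exact Complex.conjCLE.contDiff.contDiffAt.comp z (ev_sm hζ t)

lemma alt_sm {C : Cm n → Cm n →L[ℂ] Af n p} (h : ContDiffAt ℝ m C z) :
    ContDiffAt ℝ m (fun y => ContinuousAlternatingMap.alternatizeUncurryFin (C y)) z := by
  have := clm_sm (V := Cm n →L[ℂ] Af n p) (W := Af n (p + 1))
    (ContinuousAlternatingMap.alternatizeUncurryFinCLM ℂ (Cm n) ℂ (n := p)) h
  exact this

lemma smulRight_sm {f : Cm n → V} (c : Cm n →L[ℂ] ℂ) (h : ContDiffAt ℝ m f z) :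
    ContDiffAt ℝ m (fun y => c.smulRight (f y)) z :=
  ((ContinuousLinearMap.smulRightL ℂ (Cm n) V c).restrictScalars ℝ).contDiff.contDiffAt.comp z h

lemma wdz_sm {η : Cm n → Af n p} (h : ContDiffAt ℝ m η z) (c : Fin n) :
    ContDiffAt ℝ m (fun y => wdz c (η y)) z :=
  alt_sm (smulRight_sm _ h)

lemma dhL_sm {φ : Cm n → ℝ} {η : Cm n → Af n p} (hφ : ContDiffAt ℝ ∞ φ z)
    (h : ContDiffAt ℝ ∞ η z) : ContDiffAt ℝ ∞ (dhL φ η) z := by
  have hφ' : ContDiffAt ℝ ∞ (fun y => (φ y : ℂ)) z := ofReal_contDiffAt hφ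
  refine alt_sm (C := fun z => ∑ a, (ContinuousLinearMap.proj (R := ℂ)
    (φ := fun _ : Fin n => ℂ) a).smulRight (dzV a η z - dz a (fun y => (φ y : ℂ)) z • η z))
    (ContDiffAt.sum fun a _ => smulRight_sm _ ((dzV_sm h a).sub ?_))
  exact ContDiffAt.fun_smul (contDiffAt_dz hφ' (by simp)) h

lemma SL_sm {w : Cm n → Matrix (Fin n) (Fin n) ℂ} (hw : ∀ j k, ContDiffAt ℝ ∞ (fun y => w y j k) z)
    (h0 : (w z).det ≠ 0) {η : Cm n → Af n (p + 1)} (h : ContDiffAt ℝ ∞ η z) :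
    ContDiffAt ℝ ∞ (SL w η) z := by
  refine ContDiffAt.neg (ContDiffAt.sum fun a _ => ContDiffAt.sum fun b _ =>
    ContDiffAt.fun_smul (contDiffAt_inv hw h0 b a) ?_)
  have h1 : ContDiffAt ℝ ∞ (fun y => (dbV b η y).curryLeft) z := by
    have := clm_sm (V := Af n (p + 1)) (W := Cm n →L[ℂ] Af n p)
      (ContinuousAlternatingMap.curryLeftLI (𝕜 := ℂ) (E := Cm n) (F := ℂ)
        (n := p)).toContinuousLinearMap (dbV_sm h b)
    exact this
  have h2 := clm_sm (V := Cm n →L[ℂ] Af n p) (W := Af n p)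
    (ContinuousLinearMap.apply ℂ (Af n p) (Pi.single a 1 : Cm n)) h1
  exact h2

end sm

/-! ### `∂_h η` and `S η` are forms -/

lemma dh_at (η : K.Fm p) {z : Cm n} (hz : z ∈ (K.e i).target) :
    K.dh η i z = dhL (K.φ i) (η i) z := by
  unfold KA.dh; rw [if_pos hz]

lemma dh_off (η : K.Fm p) {z : Cm n} (hz : z ∉ (K.e i).target) : K.dh η i z = 0 := by
  unfold KA.dh; rw [if_neg hz]

lemma S_at (η : K.Fm (p + 1)) {z : Cm n} (hz : z ∈ (K.e i).target) :
    K.S η i z = SL (K.w i) (η i) z := by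
  unfold KA.S; rw [if_pos hz]

lemma S_off (η : K.Fm (p + 1)) {z : Cm n} (hz : z ∉ (K.e i).target) : K.S η i z = 0 := by
  unfold KA.S; rw [if_neg hz]

lemma dh_ev (η : K.Fm p) {z : Cm n} (hz : z ∈ (K.e i).target) :
    K.dh η i =ᶠ[𝓝 z] dhL (K.φ i) (η i) := by
  filter_upwards [(K.e i).open_target.mem_nhds hz] with y hy using dh_at η hy

lemma S_ev (η : K.Fm (p + 1)) {z : Cm n} (hz : z ∈ (K.e i).target) :
    K.S η i =ᶠ[𝓝 z] SL (K.w i) (η i) := by
  filter_upwards [(K.e i).open_target.mem_nhds hz] with y hy using S_at η hy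

lemma w_det {z : Cm n} (hz : z ∈ (K.e i).target) : (K.w i z).det ≠ 0 :=
  (K.wpos i z hz).det_pos.ne'

theorem dh_form {η : K.Fm p} (hη : K.IsForm η) (hs : K.Smooth η) :
    K.IsForm (K.dh η) ∧ K.Smooth (K.dh η) := by
  refine ⟨⟨fun i j x hi hj => ?_, fun i z hz => dh_off η hz⟩, fun i z hz => ?_⟩
  · rw [dh_at η ((K.e i).map_source hi), dh_at η ((K.e j).map_source hj)]
    have hd : DifferentiableAt ℝ (η j) (tr K i j (K.e i x)) := by
      rw [tr_apply hi]; exact (hs j _ ((K.e j).map_source hj)).differentiableAt (by simp)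
    have hφ' : DifferentiableAt ℝ (K.φ j) (tr K i j (K.e i x)) := by
      rw [tr_apply hi]; exact (φs hj).differentiableAt (by simp)
    have := dhL_chg (tr_an hi hj) (a_an hi hj) (a_ne hi hj) ((φs hi).differentiableAt (by simp))
      hφ' (φ_tr hi hj) hd (η_tr hη hi hj)
    rw [tr_apply hi] at this
    exact this
  · exact (dhL_sm (K.φsm i z hz) (hs i z hz)).congr_of_eventuallyEq (dh_ev η hz)

theorem S_form {η : K.Fm (p + 1)} (hη : K.IsForm η) (hs : K.Smooth η) :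
    K.IsForm (K.S η) ∧ K.Smooth (K.S η) := by
  refine ⟨⟨fun i j x hi hj => ?_, fun i z hz => S_off η hz⟩, fun i z hz => ?_⟩
  · rw [S_at η ((K.e i).map_source hi), S_at η ((K.e j).map_source hj)]
    have hd : DifferentiableAt ℝ (η j) (tr K i j (K.e i x)) := by
      rw [tr_apply hi]; exact (hs j _ ((K.e j).map_source hj)).differentiableAt (by simp)
    have := SL_chg (w := K.w i) (w' := K.w j) (tr_an hi hj) (a_an hi hj) hd (η_tr hη hi hj)
      (trL_bij hi hj) (by rw [tr_apply hi]; exact w_tr hi hj)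
    rw [tr_apply hi] at this
    exact this
  · exact (SL_sm (K.wsm i z hz) (w_det hz) (hs i z hz)).congr_of_eventuallyEq (S_ev η hz)

end Vale.Agent.P284.H205.K
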