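import Vale.Agent.P284.H205.K.Msr

/-!
# P284 (helper205), K3: decomposition of test forms, the global formulas
-/

open scoped ContDiff Topology ComplexConjugate ComplexOrder ENNReal
open Filter Set MeasureTheory

noncomputable section

namespace Vale.Agent.P284.H205.K

open Vale.Agent.P272.K Vale.Agent.P284.H608.K

variable {n p : ℕ} {M : Type} [TopologicalSpace M] [MeasurableSpace M]

lemma af_smul_zero (c : ℂ) : c • (0 : Af n p) = 0 := by ext v; simp

lemma af_zero_smul (A : Af n p) : (0 : ℂ) • A = 0 := by ext v; simp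

/-- smooth functions on `M` -/
def SmF (K : KA n M) (f : M → ℝ) : Prop :=
  ∀ i, ∀ z ∈ (K.e i).target, ContDiffAt ℝ ∞ (fun z => f ((K.e i).symm z)) z

/-- the product of a function and a form -/
def mulF (K : KA n M) (f : M → ℝ) (η : K.Fm p) : K.Fm p := fun i z =>
  (f ((K.e i).symm z) : ℂ) • η i z

variable {K : KA n M} {i j : K.I} {x : M}

lemma SmF.one_sub {f : M → ℝ} (h : SmF K f) : SmF K fun y => 1 - f y := fun i z hz =>
  contDiffAt_const.sub (h i z hz)

lemma mulF_form {f : M → ℝ} {η : K.Fm p} (hη : K.IsForm η) : K.IsForm (mulF K f η) := by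
  refine ⟨fun i j x hi hj => ?_, fun i z hz => ?_⟩
  · unfold mulF
    rw [(K.e i).left_inv hi, (K.e j).left_inv hj, hη.change i j x hi hj]
    ext v; simp; ring
  · unfold mulF; rw [hη.off i z hz, af_smul_zero]

lemma mulF_sm {f : M → ℝ} (hf : SmF K f) {η : K.Fm p} (hη : K.Smooth η) :
    K.Smooth (mulF K f η) := fun i z hz =>
  ContDiffAt.fun_smul (ofReal_contDiffAt (hf i z hz)) (hη i z hz)

lemma mulF_test {f : M → ℝ} (hf : SmF K f) {η : K.Fm p} (hη : K.Test η) :
    K.Test (mulF K f η) := by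
  obtain ⟨C, hC, hC'⟩ := hη.supp
  refine ⟨mulF_form hη.form, mulF_sm hf hη.smooth, C, hC, fun i x hi hx => ?_⟩
  unfold mulF; rw [hC' i x hi hx, af_smul_zero]

lemma mulF_add (f : M → ℝ) (η : K.Fm p) : mulF K f η + mulF K (fun y => 1 - f y) η = η := by
  funext i z
  show (f ((K.e i).symm z) : ℂ) • η i z + ((1 - f ((K.e i).symm z) : ℝ) : ℂ) • η i z = η i z
  push_cast; module

/-- a bump function in a chart -/
structure Bmp (K : KA n M) where
  i : K.I
  D : Set M
  f : M → ℝ
  cpt : IsCompact D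
  sub : D ⊆ (K.e i).source
  sm : SmF K f
  off : ∀ y, y ∉ D → f y = 0

variable [T2Space M]

lemma exists_bmp (K : KA n M) (x : M) : ∃ b : Bmp K, ∀ᶠ y in 𝓝 x, b.f y = 1 := by
  classical
  set i := K.ix x
  have hi : x ∈ (K.e i).source := ix_mem x
  obtain ⟨r, hr, hrb⟩ := Metric.nhds_basis_closedBall.mem_iff.1
    ((K.e i).open_target.mem_nhds ((K.e i).map_source hi))
  let ψ : ContDiffBump (K.e i x) := ⟨r / 4, r / 2, by linarith, by linarith⟩
  have hc : IsCompact ((K.e i).symm '' Metric.closedBall (K.e i x) r) :=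
    (isCompact_closedBall _ _).image_of_continuousOn ((K.e i).continuousOn_symm.mono hrb)
  have hoff : ∀ y, y ∉ (K.e i).symm '' Metric.closedBall (K.e i x) r →
      (if y ∈ (K.e i).source then ψ (K.e i y) else 0) = 0 := by
    intro y hy
    by_cases hys : y ∈ (K.e i).source
    · rw [if_pos hys]
      refine ψ.zero_of_le_dist ?_
      by_contra hlt
      refine hy ⟨K.e i y, ?_, (K.e i).left_inv hys⟩
      rw [Metric.mem_closedBall]
      have h2 : ψ.rOut = r / 2 := rfl
      rw [h2] at hlt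
      linarith
    · rw [if_neg hys]
  refine ⟨⟨i, (K.e i).symm '' Metric.closedBall (K.e i x) r,
    fun y => if y ∈ (K.e i).source then ψ (K.e i y) else 0, hc, ?_, ?_, hoff⟩, ?_⟩
  · rintro _ ⟨z, hz, rfl⟩
    exact (K.e i).map_target (hrb hz)
  · intro j z hz
    by_cases hy : (K.e j).symm z ∈ (K.e i).symm '' Metric.closedBall (K.e i x) r
    · have hys : (K.e j).symm z ∈ (K.e i).source := by
        obtain ⟨w, hw, hw'⟩ := hy
        rw [← hw']; exact (K.e i).map_target (hrb hw)
      have hjs : (K.e j).symm z ∈ (K.e j).source := (K.e j).map_target hz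
      have h1 := nhds_two hjs hys
      have h2 := tr_an hjs hys
      rw [(K.e j).right_inv hz] at h1 h2
      have h3 : ContDiffAt ℝ ∞ (tr K j i) z :=
        ((h2.contDiffAt (n := ω)).restrict_scalars ℝ).of_le (by exact le_top)
      refine (ψ.contDiffAt.comp z h3).congr_of_eventuallyEq ?_
      filter_upwards [h1] with w hw
      rw [if_pos hw.2.2]; rfl
    · have h2 : ContinuousAt (K.e j).symm z := (K.e j).continuousAt_symm hz
      have h3 : ∀ᶠ w in 𝓝 z, (K.e j).symm w ∉ (K.e i).symm '' Metric.closedBall (K.e i x) r :=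
        h2.eventually (p := fun y => y ∉ (K.e i).symm '' Metric.closedBall (K.e i x) r)
          (hc.isClosed.isOpen_compl.mem_nhds hy)
      refine (contDiffAt_const (c := (0 : ℝ))).congr_of_eventuallyEq ?_
      filter_upwards [h3] with w hw using hoff _ hw
  · have h1 : ∀ᶠ y in 𝓝 x, K.e i y ∈ Metric.ball (K.e i x) (r / 4) :=
      ((K.e i).continuousAt hi).eventually (Metric.ball_mem_nhds _ (by linarith))
    filter_upwards [h1, (K.e i).open_source.mem_nhds hi] with y hy hy'
    show (if y ∈ (K.e i).source then ψ (K.e i y) else 0) = 1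
    rw [if_pos hy']
    exact ψ.one_of_mem_closedBall (Metric.ball_subset_closedBall hy)

/-- **decomposition principle** -/
theorem decomp {D : K.Fm p → ℂ}
    (hadd : ∀ τ τ', K.Test τ → K.Test τ' → D (τ + τ') = D τ + D τ')
    (hloc : ∀ (i : K.I) (C : Set M) (τ : K.Fm p), IsCompact C → C ⊆ (K.e i).source → K.Test τ →
      K.Off C τ → D τ = 0) {τ : K.Fm p} (hτ : K.Test τ) : D τ = 0 := by
  have h0 : K.Test (0 : K.Fm p) :=
    ⟨⟨fun i j x _ _ => by ext v; simp, fun i z _ => rfl⟩, fun i z _ => contDiffAt_const, ∅,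
      isCompact_empty, fun i x _ _ => rfl⟩
  have hD0 : D 0 = 0 := by
    have := hadd 0 0 h0 h0
    rw [add_zero] at this
    simpa using this
  have key : ∀ (L : List (Bmp K)) (τ : K.Fm p), K.Test τ →
      (∀ y, (∀ b ∈ L, b.f y ≠ 1) → ∀ i, y ∈ (K.e i).source → τ i (K.e i y) = 0) → D τ = 0 := by
    intro L
    induction L with
    | nil =>
      intro τ hτ h
      have : τ = 0 := by
        funext i z
        by_cases hz : z ∈ (K.e i).target
        · have := h ((K.e i).symm z) (by simp) i ((K.e i).map_target hz)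
          rwa [(K.e i).right_inv hz] at this
        · exact hτ.form.off i z hz
      rw [this, hD0]
    | cons b L ih =>
      intro τ hτ h
      have h1 := mulF_test b.sm hτ
      have h2 := mulF_test b.sm.one_sub hτ
      rw [← mulF_add b.f τ, hadd _ _ h1 h2]
      have e1 : D (mulF K b.f τ) = 0 := by
        refine hloc b.i b.D _ b.cpt b.sub h1 fun i x hi hx => ?_
        unfold mulF; rw [(K.e i).left_inv hi, b.off x hx, Complex.ofReal_zero, af_zero_smul]
      have e2 : D (mulF K (fun y => 1 - b.f y) τ) = 0 := by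
        refine ih _ h2 fun y hy i hi => ?_
        show ((1 - b.f ((K.e i).symm (K.e i y)) : ℝ) : ℂ) • τ i (K.e i y) = 0
        rw [(K.e i).left_inv hi]
        by_cases hb : b.f y = 1
        · rw [hb, sub_self, Complex.ofReal_zero, af_zero_smul]
        · rw [h y (fun b' hb' => by
            rcases List.mem_cons.1 hb' with rfl | hb'
            · exact hb
            · exact hy b' hb') i hi, af_smul_zero]
      rw [e1, e2, add_zero]
  obtain ⟨C, hC, hC'⟩ := hτ.supp
  obtain ⟨L, hL⟩ : ∃ L : List (Bmp K), ∀ y ∈ C, ∃ b ∈ L, b.f y = 1 := by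
    refine hC.induction_on (p := fun s => ∃ L : List (Bmp K), ∀ y ∈ s, ∃ b ∈ L, b.f y = 1)
      ⟨[], by simp⟩ ?_ ?_ ?_
    · rintro s t hst ⟨L, hL⟩
      exact ⟨L, fun y hy => hL y (hst hy)⟩
    · rintro s t ⟨L, hL⟩ ⟨L', hL'⟩
      refine ⟨L ++ L', fun y hy => ?_⟩
      rcases hy with hy | hy
      · obtain ⟨b, hb, hb'⟩ := hL y hy
        exact ⟨b, List.mem_append.2 (Or.inl hb), hb'⟩
      · obtain ⟨b, hb, hb'⟩ := hL' y hy
        exact ⟨b, List.mem_append.2 (Or.inr hb), hb'⟩
    · intro x _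
      obtain ⟨b, hb⟩ := exists_bmp K x
      exact ⟨{y | b.f y = 1}, mem_nhdsWithin_of_mem_nhds hb, [b], fun y hy => ⟨b, by simp, hy⟩⟩
  refine key L τ hτ fun y hy i hi => ?_
  refine hC' i y hi fun hyC => ?_
  obtain ⟨b, hb, hb'⟩ := hL y hyC
  exact hy b hb hb'

end Vale.Agent.P284.H205.K
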