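import Vale.Agent.P284.H205.K.Glb

/-!
# P284 (helper205), module K3: `k3_of : K1Stmt → K2AdjStmt → K2BKStmt → K2BK0Stmt → K3Stmt n M K`
-/

open scoped ContDiff Topology ComplexConjugate ComplexOrder ENNReal
open Filter Set MeasureTheory

noncomputable section

namespace Vale.Agent.P284.H205.K

open Vale.Agent.P272.K Vale.Agent.P284.H608.K

variable {n p : ℕ} {M : Type} [TopologicalSpace M] [MeasurableSpace M] {K : KA n M} {i : K.I}
  {x : M}

lemma dh_add {η τ : K.Fm p} (h : K.Smooth η) (h' : K.Smooth τ) :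
    K.dh (η + τ) = K.dh η + K.dh τ := by
  funext i z
  show _ = K.dh η i z + K.dh τ i z
  by_cases hz : z ∈ (K.e i).target
  · rw [dh_at _ hz, dh_at _ hz, dh_at _ hz]
    exact dhL_add ((h i z hz).differentiableAt (by simp)) ((h' i z hz).differentiableAt (by simp))
  · rw [dh_off _ hz, dh_off _ hz, dh_off _ hz, add_zero]

lemma S_add {η τ : K.Fm (p + 1)} (h : K.Smooth η) (h' : K.Smooth τ) :
    K.S (η + τ) = K.S η + K.S τ := by
  funext i z
  show _ = K.S η i z + K.S τ i z
  by_cases hz : z ∈ (K.e i).target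
  · rw [S_at _ hz, S_at _ hz, S_at _ hz]
    exact SL_add ((h i z hz).differentiableAt (by simp)) ((h' i z hz).differentiableAt (by simp))
  · rw [S_off _ hz, S_off _ hz, S_off _ hz, add_zero]

lemma dn_add_left (a b c : K.Fm p) (x : M) : K.dn (a + b) c x = K.dn a c x + K.dn b c x := by
  unfold KA.dn
  rw [← mul_add, ← hn_add_left]; rfl

lemma dn_add_right (a b c : K.Fm p) (x : M) : K.dn c (a + b) x = K.dn c a x + K.dn c b x := by
  unfold KA.dn
  rw [← mul_add, ← hn_add_right]; rfl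

lemma ad2_add_right (a b c : K.Fm p) (x : M) : ad2 K c (a + b) x = ad2 K c a x + ad2 K c b x := by
  unfold ad2 Ad2
  rw [← mul_add, ← Finset.sum_add_distrib]
  congr 1
  refine Finset.sum_congr rfl fun d _ => ?_
  rw [← Finset.sum_add_distrib]
  refine Finset.sum_congr rfl fun d' _ => ?_
  rw [← mul_add, ← hn_add_right, ← wdz_add]; rfl

lemma tn2_add_right {a b : K.Fm p} (ha : K.Smooth a) (hb : K.Smooth b) (c : K.Fm p) (x : M) :
    tn2 K c (a + b) x = tn2 K c a x + tn2 K c b x := by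
  unfold tn2 Tn2
  have hz : K.e (K.ix x) x ∈ (K.e (K.ix x)).target := (K.e _).map_source (ix_mem x)
  rw [← mul_add, ← Finset.sum_add_distrib]
  congr 1
  refine Finset.sum_congr rfl fun d _ => ?_
  rw [← Finset.sum_add_distrib]
  refine Finset.sum_congr rfl fun d' _ => ?_
  rw [← mul_add, ← hn_add_right,
    ← dbV_add ((ha _ _ hz).differentiableAt (by simp)) ((hb _ _ hz).differentiableAt (by simp))]
  rfl

lemma kon (i : K.I) : KOn (K.e i).target (K.w i) := ⟨K.wsm i, K.wpos i, K.wcl i⟩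

lemma off_img {C : Set M} {τ : K.Fm p} (hτ : K.IsForm τ) (h : K.Off C τ) {z : Cm n}
    (hz : z ∉ K.e i '' C) : τ i z = 0 := by
  by_cases hz' : z ∈ (K.e i).target
  · have := h i ((K.e i).symm z) ((K.e i).map_target hz')
      (fun hc => hz ⟨_, hc, (K.e i).right_inv hz'⟩)
    rwa [(K.e i).right_inv hz'] at this
  · exact hτ.off i z hz'

lemma cpt_img {C : Set M} (hC : IsCompact C) (h : C ⊆ (K.e i).source) :
    IsCompact (K.e i '' C) ∧ K.e i '' C ⊆ (K.e i).target := by
  refine ⟨hC.image_of_continuousOn ((K.e i).continuousOn.mono h), ?_⟩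
  rintro _ ⟨y, hy, rfl⟩
  exact (K.e i).map_source (h hy)

section fin

variable [BorelSpace M]

/-- the `L²` product in a chart -/
lemma ip_chart (h1 : K1Stmt) {η ζ : K.Fm p} (hη : K.IsForm η) (hηs : K.Smooth η)
    (hζ : K.IsForm ζ) (hζs : K.Smooth ζ) {C : Set M} (hC : C ⊆ (K.e i).source)
    (h : K.Off C η ∨ K.Off C ζ) :
    K.ip η ζ = ∫ z in (K.e i).target, (Real.exp (-K.φ i z) : ℂ) *
      hn (K.w i z) (η i z) (ζ i z) * (K.w i z).det := by
  unfold KA.ip
  rw [int_chart (i := i) (dn_cont h1 hη hηs hζ hζs).aestronglyMeasurable]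
  · refine setIntegral_congr_fun (K.e i).open_target.measurableSet fun z hz => ?_
    show (K.w i z).det * K.dn η ζ ((K.e i).symm z) = _
    rw [dn_eq h1 hη hζ ((K.e i).map_target hz), (K.e i).right_inv hz, mul_comm]
  · intro y hy
    have hy' : y ∉ C := fun h => hy (hC h)
    rcases h with h | h
    · exact dn_zero_left (h _ y (ix_mem y) hy')
    · exact dn_zero_right (h _ y (ix_mem y) hy')

variable [T2Space M]

lemma ip_add_left (h1 : K1Stmt) {a b c : K.Fm p} (ha : K.IsForm a) (has : K.Smooth a)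
    (hb : K.IsForm b) (hbs : K.Smooth b) (hc : K.IsForm c) (hcs : K.Smooth c)
    (h : K.Test a ∧ K.Test b ∨ K.Test c) : K.ip (a + b) c = K.ip a c + K.ip b c := by
  unfold KA.ip
  have e1 : Integrable (K.dn a c) K.μ := by
    rcases h with h | h
    · exact (dn_int h1 h.1 hc hcs).1
    · exact (dn_int h1 h ha has).2
  have e2 : Integrable (K.dn b c) K.μ := by
    rcases h with h | h
    · exact (dn_int h1 h.2 hc hcs).1
    · exact (dn_int h1 h hb hbs).2
  rw [← integral_add e1 e2]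
  exact integral_congr_ae (Eventually.of_forall fun x => dn_add_left a b c x)

lemma ip_add_right (h1 : K1Stmt) {a b c : K.Fm p} (ha : K.IsForm a) (has : K.Smooth a)
    (hb : K.IsForm b) (hbs : K.Smooth b) (hc : K.IsForm c) (hcs : K.Smooth c)
    (h : K.Test a ∧ K.Test b ∨ K.Test c) : K.ip c (a + b) = K.ip c a + K.ip c b := by
  unfold KA.ip
  have e1 : Integrable (K.dn c a) K.μ := by
    rcases h with h | h
    · exact (dn_int h1 h.1 hc hcs).2
    · exact (dn_int h1 h ha has).1
  have e2 : Integrable (K.dn c b) K.μ := by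
    rcases h with h | h
    · exact (dn_int h1 h.2 hc hcs).2
    · exact (dn_int h1 h hb hbs).1
  rw [← integral_add e1 e2]
  exact integral_congr_ae (Eventually.of_forall fun x => dn_add_right a b c x)

/-- adjointness in a chart -/
lemma adj_loc (h1 : K1Stmt) (h2 : K2AdjStmt) {τ : K.Fm p} {η : K.Fm (p + 1)} (hτ : K.IsForm τ)
    (hτs : K.Smooth τ) (hη : K.IsForm η) (hηs : K.Smooth η) {C : Set M} (hC : IsCompact C)
    (hCi : C ⊆ (K.e i).source) (h : K.Off C τ ∨ K.Off C η) :
    K.ip (K.dh τ) η = K.ip τ (K.S η) := by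
  have hd := dh_form hτ hτs
  have hS := S_form hη hηs
  rw [ip_chart h1 hd.1 hd.2 hη hηs hCi (h.imp (dh_off' hC.isClosed) id),
    ip_chart h1 hτ hτs hS.1 hS.2 hCi (h.imp id (S_off' hC.isClosed))]
  have := h2 n p (K.e i).target (K.e i).open_target (K.w i) (kon i) (K.φ i) (K.φsm i) (τ i) (η i)
    (hτs i) (hηs i) ⟨K.e i '' C, (cpt_img hC hCi).1, (cpt_img hC hCi).2,
      h.imp (fun h z hz => off_img hτ h hz) (fun h z hz => off_img hη h hz)⟩
  rw [setIntegral_congr_fun (K.e i).open_target.measurableSet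
    (g := fun z => (Real.exp (-K.φ i z) : ℂ) * hn (K.w i z) (dhL (K.φ i) (τ i) z) (η i z) *
      (K.w i z).det) (fun z hz => by simp only [dh_at _ hz]),
    setIntegral_congr_fun (K.e i).open_target.measurableSet
    (f := fun z => (Real.exp (-K.φ i z) : ℂ) * hn (K.w i z) (τ i z) (K.S η i z) *
      (K.w i z).det)
    (g := fun z => (Real.exp (-K.φ i z) : ℂ) * hn (K.w i z) (τ i z) (SL (K.w i) (η i) z) *
      (K.w i z).det) (fun z hz => by simp only [S_at _ hz])]
  exact this

theorem adj (h1 : K1Stmt) (h2 : K2AdjStmt) {τ : K.Fm p} {η : K.Fm (p + 1)} (hτ : K.IsForm τ)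
    (hτs : K.Smooth τ) (hη : K.IsForm η) (hηs : K.Smooth η) (h : K.Test τ ∨ K.Test η) :
    K.ip (K.dh τ) η = K.ip τ (K.S η) := by
  rcases h with h | h
  · refine sub_eq_zero.1 (decomp (D := fun τ => K.ip (K.dh τ) η - K.ip τ (K.S η)) ?_ ?_ h)
    · intro τ τ' ht ht'
      have hS := S_form hη hηs
      show K.ip (K.dh (τ + τ')) η - K.ip (τ + τ') (K.S η) = _
      rw [dh_add ht.smooth ht'.smooth, ip_add_left h1 (dh_test ht).form (dh_test ht).smooth
        (dh_test ht').form (dh_test ht').smooth hη hηs (Or.inl ⟨dh_test ht, dh_test ht'⟩),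
        ip_add_left h1 ht.form ht.smooth ht'.form ht'.smooth hS.1 hS.2 (Or.inl ⟨ht, ht'⟩)]
      ring
    · intro i C τ hC hCi ht ho
      exact sub_eq_zero.2 (adj_loc h1 h2 ht.form ht.smooth hη hηs hC hCi (Or.inl ho))
  · refine sub_eq_zero.1 (decomp (D := fun η => K.ip (K.dh τ) η - K.ip τ (K.S η)) ?_ ?_ h)
    · intro η η' ht ht'
      have hd := dh_form hτ hτs
      show K.ip (K.dh τ) (η + η') - K.ip τ (K.S (η + η')) = _
      rw [S_add ht.smooth ht'.smooth, ip_add_right h1 (S_test ht).form (S_test ht).smooth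
        (S_test ht').form (S_test ht').smooth hτ hτs (Or.inl ⟨S_test ht, S_test ht'⟩),
        ip_add_right h1 ht.form ht.smooth ht'.form ht'.smooth hd.1 hd.2 (Or.inl ⟨ht, ht'⟩)]
      ring
    · intro i C η hC hCi ht ho
      exact sub_eq_zero.2 (adj_loc h1 h2 hτ hτs ht.form ht.smooth hC hCi (Or.inr ho))

/-- the density of the Bochner-Kodaira identity -/
def bkD (K : KA n M) (η τ : K.Fm (p + 1)) (x : M) : ℂ :=
  K.dn (K.dh η) (K.dh τ) x + K.dn (K.S η) (K.S τ) x - tn2 K η τ x - ad2 K η τ x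

/-- the density of the Bochner-Kodaira identity, degree `0` -/
def bkD0 (K : KA n M) (η τ : K.Fm 0) (x : M) : ℂ :=
  K.dn (K.dh η) (K.dh τ) x - tn2 K η τ x - ad2 K η τ x

lemma bkD_int (h1 : K1Stmt) {η τ : K.Fm (p + 1)} (hη : K.Test η) (hτ : K.Test τ) :
    Integrable (bkD K η τ) K.μ := by
  have e1 := (dn_int h1 (dh_test hη) (dh_test hτ).form (dh_test hτ).smooth).1
  have e2 := (dn_int h1 (S_test hη) (S_test hτ).form (S_test hτ).smooth).1
  exact ((e1.add e2).sub (tn2_int h1 hη.form hη.smooth hτ)).sub (ad2_int h1 hη.form hη.smooth hτ)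

lemma bkD0_int (h1 : K1Stmt) {η τ : K.Fm 0} (hη : K.Test η) (hτ : K.Test τ) :
    Integrable (bkD0 K η τ) K.μ := by
  have e1 := (dn_int h1 (dh_test hη) (dh_test hτ).form (dh_test hτ).smooth).1
  exact (e1.sub (tn2_int h1 hη.form hη.smooth hτ)).sub (ad2_int h1 hη.form hη.smooth hτ)

omit [T2Space M] [BorelSpace M] in
lemma bkD_add {η a b : K.Fm (p + 1)} (ha : K.Test a) (hb : K.Test b) (x : M) :
    bkD K η (a + b) x = bkD K η a x + bkD K η b x := by
  unfold bkD
  rw [dh_add ha.smooth hb.smooth, S_add ha.smooth hb.smooth, dn_add_right, dn_add_right,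
    tn2_add_right ha.smooth hb.smooth, ad2_add_right]
  ring

omit [T2Space M] [BorelSpace M] in
lemma bkD0_add {η a b : K.Fm 0} (ha : K.Test a) (hb : K.Test b) (x : M) :
    bkD0 K η (a + b) x = bkD0 K η a x + bkD0 K η b x := by
  unfold bkD0
  rw [dh_add ha.smooth hb.smooth, dn_add_right,
    tn2_add_right ha.smooth hb.smooth, ad2_add_right]
  ring

lemma bkD_zero (h1 : K1Stmt) (h2 : K2BKStmt) {η τ : K.Fm (p + 1)} (hη : K.Test η)
    (hτ : K.Test τ) : ∫ x, bkD K η τ x ∂K.μ = 0 := by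
  refine decomp (D := fun τ => ∫ x, bkD K η τ x ∂K.μ) ?_ ?_ hτ
  · intro a b ha hb
    show ∫ x, bkD K η (a + b) x ∂K.μ = _
    rw [← integral_add (bkD_int h1 hη ha) (bkD_int h1 hη hb)]
    exact integral_congr_ae (Eventually.of_forall fun x => bkD_add ha hb x)
  · intro i C τ hC hCi ht ho
    show ∫ x, bkD K η τ x ∂K.μ = 0
    rw [int_chart (i := i)]
    · have := h2 n p (K.e i).target (K.e i).open_target (K.w i) (kon i) (K.φ i) (K.φsm i) (η i)
        (τ i) (hη.smooth i) (ht.smooth i) ⟨K.e i '' C, (cpt_img hC hCi).1, (cpt_img hC hCi).2,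
          fun z hz => off_img ht.form ho hz⟩
      rw [← this]
      refine setIntegral_congr_fun (K.e i).open_target.measurableSet fun z hz => ?_
      have hx := (K.e i).map_target hz
      have hd := dh_test hη
      have hd' := dh_test ht
      have hs := S_test hη
      have hs' := S_test ht
      show (K.w i z).det * bkD K η τ ((K.e i).symm z) = _
      unfold bkD
      rw [dn_eq h1 hd.form hd'.form hx, dn_eq h1 hs.form hs'.form hx,
        tn2_eq h1 hη.form hη.smooth ht.form ht.smooth hx, ad2_eq h1 hη.form ht.form hx,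
        (K.e i).right_inv hz, dh_at _ hz, dh_at _ hz, S_at _ hz, S_at _ hz]
      unfold Tn2 Ad2
      ring
    · refine Continuous.aestronglyMeasurable ?_
      exact (((dn_cont h1 (dh_test hη).form (dh_test hη).smooth (dh_test ht).form
        (dh_test ht).smooth).add (dn_cont h1 (S_test hη).form (S_test hη).smooth (S_test ht).form
        (S_test ht).smooth)).sub (tn2_cont h1 hη.form hη.smooth ht.form ht.smooth)).sub
        (ad2_cont h1 hη.form hη.smooth ht.form ht.smooth)
    · intro y hy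
      have hy' : y ∉ C := fun h => hy (hCi h)
      unfold bkD
      rw [dn_zero_right (dh_off' hC.isClosed ho _ y (ix_mem y) hy'),
        dn_zero_right (S_off' hC.isClosed ho _ y (ix_mem y) hy'),
        tn2_zero_right hC.isClosed ho hy', ad2_zero_right (ho _ y (ix_mem y) hy')]
      ring

lemma bkD0_zero (h1 : K1Stmt) (h2 : K2BK0Stmt) {η τ : K.Fm 0} (hη : K.Test η)
    (hτ : K.Test τ) : ∫ x, bkD0 K η τ x ∂K.μ = 0 := by
  refine decomp (D := fun τ => ∫ x, bkD0 K η τ x ∂K.μ) ?_ ?_ hτ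
  · intro a b ha hb
    show ∫ x, bkD0 K η (a + b) x ∂K.μ = _
    rw [← integral_add (bkD0_int h1 hη ha) (bkD0_int h1 hη hb)]
    exact integral_congr_ae (Eventually.of_forall fun x => bkD0_add ha hb x)
  · intro i C τ hC hCi ht ho
    show ∫ x, bkD0 K η τ x ∂K.μ = 0
    rw [int_chart (i := i)]
    · have := h2 n (K.e i).target (K.e i).open_target (K.w i) (kon i) (K.φ i) (K.φsm i) (η i)
        (τ i) (hη.smooth i) (ht.smooth i) ⟨K.e i '' C, (cpt_img hC hCi).1, (cpt_img hC hCi).2,
          fun z hz => off_img ht.form ho hz⟩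
      rw [← this]
      refine setIntegral_congr_fun (K.e i).open_target.measurableSet fun z hz => ?_
      have hx := (K.e i).map_target hz
      have hd := dh_test hη
      have hd' := dh_test ht
      show (K.w i z).det * bkD0 K η τ ((K.e i).symm z) = _
      unfold bkD0
      rw [dn_eq h1 hd.form hd'.form hx,
        tn2_eq h1 hη.form hη.smooth ht.form ht.smooth hx, ad2_eq h1 hη.form ht.form hx,
        (K.e i).right_inv hz, dh_at _ hz, dh_at _ hz]
      unfold Tn2 Ad2
      ring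
    · refine Continuous.aestronglyMeasurable ?_
      exact ((dn_cont h1 (dh_test hη).form (dh_test hη).smooth (dh_test ht).form
        (dh_test ht).smooth).sub (tn2_cont h1 hη.form hη.smooth ht.form ht.smooth)).sub
        (ad2_cont h1 hη.form hη.smooth ht.form ht.smooth)
    · intro y hy
      have hy' : y ∉ C := fun h => hy (hCi h)
      unfold bkD0
      rw [dn_zero_right (dh_off' hC.isClosed ho _ y (ix_mem y) hy'),
        tn2_zero_right hC.isClosed ho hy', ad2_zero_right (ho _ y (ix_mem y) hy')]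
      ring

lemma dT_int (h1 : K1Stmt) {η : K.Fm p} (hη : K.Test η) :
    Integrable (K.dT η) K.μ ∧ Integrable (K.dA η) K.μ := by
  have e1 : K.dT η = fun x => (tn2 K η η x).re := funext fun x => dT_tn2 η x
  have e2 : K.dA η = fun x => (ad2 K η η x).re := funext fun x => dA_ad2 η x
  rw [e1, e2]
  exact ⟨(tn2_int h1 hη.form hη.smooth hη).re, (ad2_int h1 hη.form hη.smooth hη).re⟩

lemma int_dT (h1 : K1Stmt) {η : K.Fm p} (hη : K.Test η) :
    ∫ x, K.dT η x ∂K.μ = (∫ x, tn2 K η η x ∂K.μ).re := by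
  have := integral_re (tn2_int h1 hη.form hη.smooth hη)
  rw [← RCLike.re_eq_complex_re, ← this]
  exact integral_congr_ae (Eventually.of_forall fun x => dT_tn2 η x)

lemma int_dA (h1 : K1Stmt) {η : K.Fm p} (hη : K.Test η) :
    ∫ x, K.dA η x ∂K.μ = (∫ x, ad2 K η η x ∂K.μ).re := by
  have := integral_re (ad2_int h1 hη.form hη.smooth hη)
  rw [← RCLike.re_eq_complex_re, ← this]
  exact integral_congr_ae (Eventually.of_forall fun x => dA_ad2 η x)

theorem bk (h1 : K1Stmt) (h2 : K2BKStmt) {η : K.Fm (p + 1)} (hη : K.Test η) :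
    K.nq (K.dh η) + K.nq (K.S η) = (∫ x, K.dT η x ∂K.μ) + ∫ x, K.dA η x ∂K.μ := by
  have e1 := (dn_int h1 (dh_test hη) (dh_test hη).form (dh_test hη).smooth).1
  have e2 := (dn_int h1 (S_test hη) (S_test hη).form (S_test hη).smooth).1
  have e3 := tn2_int h1 hη.form hη.smooth hη
  have e4 := ad2_int h1 hη.form hη.smooth hη
  have h3 := bkD_zero h1 h2 hη hη
  unfold bkD at h3
  have e12 : Integrable (fun x => K.dn (K.dh η) (K.dh η) x + K.dn (K.S η) (K.S η) x) K.μ :=
    e1.add e2
  have e123 : Integrable (fun x => K.dn (K.dh η) (K.dh η) x + K.dn (K.S η) (K.S η) x -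
      tn2 K η η x) K.μ := e12.sub e3
  rw [integral_sub e123 e4, integral_sub e12 e3, integral_add e1 e2] at h3
  rw [int_dT h1 hη, int_dA h1 hη]
  have h4 := congrArg Complex.re h3
  simp only [Complex.add_re, Complex.sub_re, Complex.zero_re] at h4
  show (∫ x, K.dn (K.dh η) (K.dh η) x ∂K.μ).re + (∫ x, K.dn (K.S η) (K.S η) x ∂K.μ).re = _
  linarith

theorem bk0 (h1 : K1Stmt) (h2 : K2BK0Stmt) {η : K.Fm 0} (hη : K.Test η) :
    K.nq (K.dh η) = (∫ x, K.dT η x ∂K.μ) + ∫ x, K.dA η x ∂K.μ := by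
  have e1 := (dn_int h1 (dh_test hη) (dh_test hη).form (dh_test hη).smooth).1
  have e3 := tn2_int h1 hη.form hη.smooth hη
  have e4 := ad2_int h1 hη.form hη.smooth hη
  have h3 := bkD0_zero h1 h2 hη hη
  unfold bkD0 at h3
  have e13 : Integrable (fun x => K.dn (K.dh η) (K.dh η) x - tn2 K η η x) K.μ := e1.sub e3
  rw [integral_sub e13 e4, integral_sub e1 e3] at h3
  rw [int_dT h1 hη, int_dA h1 hη]
  have h4 := congrArg Complex.re h3
  simp only [Complex.sub_re, Complex.zero_re] at h4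
  show (∫ x, K.dn (K.dh η) (K.dh η) x ∂K.μ).re = _
  linarith

end fin

/-- **K3** -/
theorem k3_of (h1 : K1Stmt) (ha : K2AdjStmt) (hb : K2BKStmt) (hb0 : K2BK0Stmt) (n : ℕ) (M : Type)
    [TopologicalSpace M] [T2Space M] [MeasurableSpace M] [BorelSpace M] (K : KA n M) :
    K3Stmt n M K where
  dn_eq _ _ _ hη hζ _ _ hx := dn_eq h1 hη hζ hx
  dT_eq _ _ hη hs _ _ hx := dT_eq h1 hη hs hx
  dA_eq _ _ hη _ _ hx := dA_eq h1 hη hx
  dh_form _ _ hη hs := dh_form hη hs
  S_form _ _ hη hs := S_form hη hs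
  dh_test _ _ hη := dh_test hη
  S_test _ _ hη := S_test hη
  dh_dh _ _ hη := dh_dh hη.smooth
  int _ _ _ hη hζ hs := dn_int h1 hη hζ hs
  intT _ _ hη := dT_int h1 hη
  adj _ _ _ hτ hτs hη hηs h := adj h1 ha hτ hτs hη hηs h
  bk _ _ hη := bk h1 hb hη
  bk0 _ hη := bk0 h1 hb0 hη

end Vale.Agent.P284.H205.K
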