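import Vale.Agent.P284.H205.K.Tst
import Mathlib.MeasureTheory.Function.LocallyIntegrable
import Mathlib.Analysis.Calculus.BumpFunction.FiniteDimension
import Mathlib.MeasureTheory.Integral.Bochner.ContinuousLinearMap

/-!
# P284 (helper205), K3: the measure in the charts; integrability; bump functions; decomposition
-/

open scoped ContDiff Topology ComplexConjugate ComplexOrder ENNReal
open Filter Set MeasureTheory

noncomputable section

namespace Vale.Agent.P284.H205.K

open Vale.Agent.P272.K Vale.Agent.P284.H608.K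

variable {n p : ℕ} {M : Type} [TopologicalSpace M] [MeasurableSpace M]

section meas

variable [BorelSpace M] (K : KA n M)

/-- the measure in the chart `i` -/
def nuC (i : K.I) : Measure (Cm n) :=
  (volume.restrict (K.e i).target).withDensity fun z => ENNReal.ofReal (K.w i z).det.re

variable {K} {i : K.I}

omit [BorelSpace M] in
lemma det_cont : ContinuousOn (fun z => (K.w i z).det.re) (K.e i).target := fun z hz =>
  (Complex.continuous_re.continuousAt.comp
    (contDiffAt_det (m := ∞) (K.wsm i z hz)).continuousAt).continuousWithinAt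

omit [BorelSpace M] in
lemma det_meas : AEMeasurable (fun z => ENNReal.ofReal (K.w i z).det.re)
    (volume.restrict (K.e i).target) :=
  ((det_cont (K := K) (i := i)).aemeasurable (K.e i).open_target.measurableSet).ennreal_ofReal

lemma symm_meas : AEMeasurable (K.e i).symm (volume.restrict (K.e i).target) :=
  (K.e i).continuousOn_symm.aemeasurable (K.e i).open_target.measurableSet

omit [BorelSpace M] in
lemma nuC_ac : nuC K i ≪ volume.restrict (K.e i).target := withDensity_absolutelyContinuous _ _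

theorem map_nuC : K.μ.restrict (K.e i).source = (nuC K i).map (K.e i).symm := by
  have hsy : AEMeasurable (K.e i).symm (nuC K i) := symm_meas.mono_ac nuC_ac
  ext s hs
  have hso : MeasurableSet (K.e i).source := (K.e i).open_source.measurableSet
  rw [Measure.restrict_apply hs, ← lintegral_indicator_one (hs.inter hso),
    ← lintegral_indicator_one hs, lintegral_map' (measurable_one.indicator hs).aemeasurable hsy]
  rw [K.hμ i ((s ∩ (K.e i).source).indicator 1) (measurable_one.indicator (hs.inter hso))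
    (fun x hx => indicator_of_notMem (fun h => hx h.2) _)]
  unfold nuC
  have hg : AEMeasurable (fun z => s.indicator (1 : M → ℝ≥0∞) ((K.e i).symm z))
      (volume.restrict (K.e i).target) :=
    (measurable_one.indicator hs).comp_aemeasurable symm_meas
  rw [lintegral_withDensity_eq_lintegral_mul₀ det_meas hg]
  refine setLIntegral_congr_fun (K.e i).open_target.measurableSet fun z hz => ?_
  have h1 : (K.e i).symm z ∈ (K.e i).source := (K.e i).map_target hz
  show _ = ENNReal.ofReal (K.w i z).det.re * s.indicator 1 ((K.e i).symm z)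
  rw [mul_comm]
  congr 1
  by_cases h : (K.e i).symm z ∈ s
  · have hm : (K.e i).symm z ∈ s ∩ (K.e i).source := ⟨h, h1⟩
    rw [indicator_of_mem hm, indicator_of_mem h]
  · rw [indicator_of_notMem (fun h' => h h'.1), indicator_of_notMem h]

/-- the integral of a function which vanishes outside of a chart -/
theorem int_chart {f : M → ℂ} (hf : AEStronglyMeasurable f (K.μ.restrict (K.e i).source))
    (h0 : ∀ x, x ∉ (K.e i).source → f x = 0) :
    ∫ x, f x ∂K.μ = ∫ z in (K.e i).target, (K.w i z).det * f ((K.e i).symm z) := by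
  have hsy : AEMeasurable (K.e i).symm (nuC K i) := symm_meas.mono_ac nuC_ac
  rw [← setIntegral_eq_integral_of_forall_compl_eq_zero (s := (K.e i).source) h0]
  rw [map_nuC] at hf ⊢
  rw [integral_map hsy hf]
  unfold nuC
  rw [integral_withDensity_eq_integral_toReal_smul₀ det_meas
    (Eventually.of_forall fun _ => ENNReal.ofReal_lt_top)]
  refine setIntegral_congr_fun (K.e i).open_target.measurableSet fun z hz => ?_
  have h1 := (K.wpos i z hz).det_pos
  have h2 : ((K.w i z).det.re : ℂ) = (K.w i z).det := by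
    apply Complex.ext
    · simp
    · have := (Complex.lt_def.1 h1).2
      simpa using this
  have h3 : 0 ≤ (K.w i z).det.re := (Complex.lt_def.1 h1).1.le
  show (ENNReal.ofReal (K.w i z).det.re).toReal • f ((K.e i).symm z) = _
  rw [ENNReal.toReal_ofReal h3, ← Complex.coe_smul, h2, smul_eq_mul]

theorem locFin : IsLocallyFiniteMeasure K.μ := by
  refine ⟨fun x => ?_⟩
  set i := K.ix x
  have hi : x ∈ (K.e i).source := ix_mem x
  have hz := (K.e i).map_source hi
  have hc : ContinuousAt (fun z => (K.w i z).det.re) (K.e i x) :=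
    (det_cont (K := K) (i := i)).continuousAt ((K.e i).open_target.mem_nhds hz)
  have h1 : ∀ᶠ z in 𝓝 (K.e i x), (K.w i z).det.re < (K.w i (K.e i x)).det.re + 1 :=
    hc.eventually_lt continuousAt_const (by linarith)
  obtain ⟨r, hr, hr'⟩ := Metric.eventually_nhds_iff_ball.1 h1
  set c := (K.w i (K.e i x)).det.re + 1
  set s : Set M := (K.e i).source ∩ K.e i ⁻¹' Metric.ball (K.e i x) r with hs
  have hso : IsOpen s := (K.e i).isOpen_inter_preimage Metric.isOpen_ball
  refine ⟨s, hso.mem_nhds ⟨hi, Metric.mem_ball_self hr⟩, ?_⟩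
  rw [← lintegral_indicator_one hso.measurableSet,
    K.hμ i (s.indicator 1) (measurable_one.indicator hso.measurableSet)
    (fun y hy => indicator_of_notMem (fun h => hy h.1) _)]
  calc _ ≤ ∫⁻ z in (K.e i).target, (Metric.ball (K.e i x) r).indicator
        (fun _ => ENNReal.ofReal c) z := by
        refine setLIntegral_mono' (K.e i).open_target.measurableSet fun z hz => ?_
        by_cases h : (K.e i).symm z ∈ s
        · have h2 : z ∈ Metric.ball (K.e i x) r := by
            have := h.2
            rwa [mem_preimage, (K.e i).right_inv hz] at this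
          rw [indicator_of_mem h, indicator_of_mem h2, Pi.one_apply, one_mul]
          exact ENNReal.ofReal_le_ofReal (hr' z h2).le
        · rw [indicator_of_notMem h, zero_mul]; exact zero_le
    _ ≤ ∫⁻ z, (Metric.ball (K.e i x) r).indicator (fun _ => ENNReal.ofReal c) z :=
        setLIntegral_le_lintegral _ _
    _ = ENNReal.ofReal c * volume (Metric.ball (K.e i x) r) := by
        rw [lintegral_indicator_const Metric.isOpen_ball.measurableSet]
    _ < ⊤ := ENNReal.mul_lt_top ENNReal.ofReal_lt_top Metric.isBounded_ball.measure_lt_top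

end meas

section dens

variable (K : KA n M)

/-- a function given by a local expression in every chart -/
lemma cont_of_chart {D : M → ℂ} {G : K.I → Cm n → ℂ}
    (h : ∀ i x, x ∈ (K.e i).source → D x = G i (K.e i x))
    (hG : ∀ i, ∀ z ∈ (K.e i).target, ContinuousAt (G i) z) : Continuous D := by
  refine continuous_iff_continuousAt.2 fun x => ?_
  have hi : x ∈ (K.e (K.ix x)).source := ix_mem x
  have h1 : ContinuousAt (fun y => G (K.ix x) (K.e (K.ix x) y)) x :=
    ContinuousAt.comp (g := G (K.ix x)) (hG _ _ ((K.e _).map_source hi)) ((K.e _).continuousAt hi)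
  refine h1.congr ?_
  filter_upwards [(K.e (K.ix x)).open_source.mem_nhds hi] with y hy using (h _ y hy).symm

variable {K}

lemma exp_cont (i : K.I) {z : Cm n} (hz : z ∈ (K.e i).target) :
    ContinuousAt (fun z => (Real.exp (-K.φ i z) : ℂ)) z :=
  Complex.continuous_ofReal.continuousAt.comp
    (Real.continuous_exp.continuousAt.comp (K.φsm i z hz).continuousAt.neg)

theorem dn_cont (h1 : K1Stmt) {η ζ : K.Fm p} (hη : K.IsForm η) (hηs : K.Smooth η)
    (hζ : K.IsForm ζ) (hζs : K.Smooth ζ) : Continuous (K.dn η ζ) := by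
  refine cont_of_chart K (G := fun i z => (Real.exp (-K.φ i z) : ℂ) *
    hn (K.w i z) (η i z) (ζ i z)) (fun i x hi => dn_eq h1 hη hζ hi) fun i z hz => ?_
  exact (exp_cont i hz).mul (hn_sm (K.wsm i z hz) (w_det hz) (hηs i z hz) (hζs i z hz)).continuousAt

theorem tn2_cont (h1 : K1Stmt) {η ζ : K.Fm p} (hη : K.IsForm η) (hηs : K.Smooth η)
    (hζ : K.IsForm ζ) (hζs : K.Smooth ζ) : Continuous (tn2 K η ζ) := by
  refine cont_of_chart K (G := fun i z => (Real.exp (-K.φ i z) : ℂ) *
    Tn2 (K.w i z) (fun b => dbV b (η i) z) (fun b => dbV b (ζ i) z))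
    (fun i x hi => tn2_eq h1 hη hηs hζ hζs hi) fun i z hz => ?_
  refine (exp_cont i hz).mul (ContDiffAt.continuousAt (𝕜 := ℝ) (n := ∞)
    (ContDiffAt.sum fun b _ => ContDiffAt.sum fun b' _ => ?_))
  exact (contDiffAt_inv (K.wsm i z hz) (w_det hz) b b').mul
    (hn_sm (K.wsm i z hz) (w_det hz) (dbV_sm (hηs i z hz) b) (dbV_sm (hζs i z hz) b'))

theorem ad2_cont (h1 : K1Stmt) {η ζ : K.Fm p} (hη : K.IsForm η) (hηs : K.Smooth η)
    (hζ : K.IsForm ζ) (hζs : K.Smooth ζ) : Continuous (ad2 K η ζ) := by
  refine cont_of_chart K (G := fun i z => (Real.exp (-K.φ i z) : ℂ) *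
    Ad2 (K.w i z) (cHess (K.φ i) z) (η i z) (ζ i z))
    (fun i x hi => ad2_eq h1 hη hζ hi) fun i z hz => ?_
  refine (exp_cont i hz).mul (ContDiffAt.continuousAt (𝕜 := ℝ) (n := ∞)
    (ContDiffAt.sum fun b _ => ContDiffAt.sum fun b' _ => ?_))
  exact (contDiffAt_cHess (K.φsm i z hz) (by simp) b b').mul
    (hn_sm (K.wsm i z hz) (w_det hz) (wdz_sm (hηs i z hz) b) (wdz_sm (hζs i z hz) b'))

lemma dn_zero_left {η ζ : K.Fm p} {x : M} (h : η (K.ix x) (K.e (K.ix x) x) = 0) :
    K.dn η ζ x = 0 := by
  unfold KA.dn; rw [h, hn_zero_left, mul_zero]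

lemma dn_zero_right {η ζ : K.Fm p} {x : M} (h : ζ (K.ix x) (K.e (K.ix x) x) = 0) :
    K.dn η ζ x = 0 := by
  unfold KA.dn; rw [h, hn_zero_right, mul_zero]

lemma ad2_zero_right {η ζ : K.Fm p} {x : M} (h : ζ (K.ix x) (K.e (K.ix x) x) = 0) :
    ad2 K η ζ x = 0 := by
  unfold ad2 Ad2; rw [h]; simp [wdz_zero, hn_zero_right]

lemma tn2_zero_right {C : Set M} (hC : IsClosed C) {η ζ : K.Fm p} (h : K.Off C ζ) {x : M}
    (hx : x ∉ C) : tn2 K η ζ x = 0 := by
  unfold tn2 Tn2
  have := off_ev hC h (ix_mem x) hx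
  simp [dbV_congr this, dbV_zero, hn_zero_right]

end dens

section integ

variable [T2Space M] [BorelSpace M] {K : KA n M}

lemma integ_of {D : M → ℂ} (hD : Continuous D) {C : Set M} (hC : IsCompact C)
    (h0 : ∀ x ∉ C, D x = 0) : Integrable D K.μ := by
  have := locFin (K := K)
  exact hD.integrable_of_hasCompactSupport (HasCompactSupport.intro hC h0)

theorem dn_int (h1 : K1Stmt) {η ζ : K.Fm p} (hη : K.Test η) (hζ : K.IsForm ζ)
    (hζs : K.Smooth ζ) : Integrable (K.dn η ζ) K.μ ∧ Integrable (K.dn ζ η) K.μ := by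
  obtain ⟨C, hC, hC'⟩ := hη.supp
  exact ⟨integ_of (dn_cont h1 hη.form hη.smooth hζ hζs) hC fun x hx =>
      dn_zero_left (hC' _ x (ix_mem x) hx),
    integ_of (dn_cont h1 hζ hζs hη.form hη.smooth) hC fun x hx =>
      dn_zero_right (hC' _ x (ix_mem x) hx)⟩

theorem tn2_int (h1 : K1Stmt) {η ζ : K.Fm p} (hη : K.IsForm η)
    (hηs : K.Smooth η) (hζ : K.Test ζ) : Integrable (tn2 K η ζ) K.μ := by
  obtain ⟨C, hC, hC'⟩ := hζ.supp
  exact integ_of (tn2_cont h1 hη hηs hζ.form hζ.smooth) hC fun x hx =>
    tn2_zero_right hC.isClosed hC' hx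

theorem ad2_int (h1 : K1Stmt) {η ζ : K.Fm p} (hη : K.IsForm η)
    (hηs : K.Smooth η) (hζ : K.Test ζ) : Integrable (ad2 K η ζ) K.μ := by
  obtain ⟨C, hC, hC'⟩ := hζ.supp
  exact integ_of (ad2_cont h1 hη hηs hζ.form hζ.smooth) hC fun x hx =>
    ad2_zero_right (hC' _ x (ix_mem x) hx)

end integ

end Vale.Agent.P284.H205.K
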