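import Vale.Agent.P284.H205.K.Alg

/-!
# P284 (helper205), K3: the transition maps of `K`, the densities, `∂_h` and `S` of forms
-/

open scoped ContDiff Topology ComplexConjugate ComplexOrder ENNReal
open Filter Set MeasureTheory

noncomputable section

namespace Vale.Agent.P284.H205.K

open Vale.Agent.P272.K Vale.Agent.P284.H608.K

variable {n p : ℕ} {M : Type} [TopologicalSpace M] [MeasurableSpace M] (K : KA n M)

/-- the transition map -/
def tr (i j : K.I) (z : Cm n) : Cm n := K.e j ((K.e i).symm z)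

/-- its differential at `x` -/
def trL (i j : K.I) (x : M) : Cm n →L[ℂ] Cm n := fderiv ℂ (tr K i j) (K.e i x)

variable {K} {i j : K.I} {x : M}

lemma tr_apply (hi : x ∈ (K.e i).source) : tr K i j (K.e i x) = K.e j x := by
  rw [tr, (K.e i).left_inv hi]

lemma nhds_two (hi : x ∈ (K.e i).source) (hj : x ∈ (K.e j).source) :
    ∀ᶠ z in 𝓝 (K.e i x), z ∈ (K.e i).target ∧ (K.e i).symm z ∈ (K.e i).source ∧
      (K.e i).symm z ∈ (K.e j).source := by
  have h1 : ∀ᶠ z in 𝓝 (K.e i x), z ∈ (K.e i).target :=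
    (K.e i).open_target.mem_nhds ((K.e i).map_source hi)
  have h2 : ContinuousAt (K.e i).symm (K.e i x) :=
    (K.e i).continuousAt_symm ((K.e i).map_source hi)
  have h3 : ∀ᶠ z in 𝓝 (K.e i x), (K.e i).symm z ∈ (K.e j).source := by
    refine h2.eventually ?_
    rw [(K.e i).left_inv hi]
    exact (K.e j).open_source.mem_nhds hj
  filter_upwards [h1, h3] with z hz hz'
  exact ⟨hz, (K.e i).map_target hz, hz'⟩

lemma tr_an (hi : x ∈ (K.e i).source) (hj : x ∈ (K.e j).source) :
    AnalyticAt ℂ (tr K i j) (K.e i x) :=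
  K.hol i j (K.e i x) ((K.e i).map_source hi) (by rw [(K.e i).left_inv hi]; exact hj)

lemma a_an (hi : x ∈ (K.e i).source) (hj : x ∈ (K.e j).source) :
    AnalyticAt ℂ (K.a i j) (K.e i x) :=
  K.ahol i j (K.e i x) ((K.e i).map_source hi) (by rw [(K.e i).left_inv hi]; exact hj)

lemma a_ne (hi : x ∈ (K.e i).source) (hj : x ∈ (K.e j).source) : K.a i j (K.e i x) ≠ 0 := by
  intro h0
  have := K.coc i j i x hi hj hi
  rw [K.aself i x hi, h0, zero_mul] at this
  exact one_ne_zero this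

lemma trL_comp (hi : x ∈ (K.e i).source) (hj : x ∈ (K.e j).source) :
    (trL K j i x).comp (trL K i j x) = ContinuousLinearMap.id ℂ (Cm n) := by
  have h1 : HasFDerivAt (tr K i j) (trL K i j x) (K.e i x) :=
    (tr_an hi hj).differentiableAt.hasFDerivAt
  have h2 : HasFDerivAt (tr K j i) (trL K j i x) (tr K i j (K.e i x)) := by
    rw [tr_apply hi]; exact (tr_an hj hi).differentiableAt.hasFDerivAt
  have h3 := h2.comp (K.e i x) h1
  have h4 : (tr K j i ∘ tr K i j) =ᶠ[𝓝 (K.e i x)] id := by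
    filter_upwards [nhds_two hi hj] with z hz
    show K.e i ((K.e j).symm (K.e j ((K.e i).symm z))) = z
    rw [(K.e j).left_inv hz.2.2, (K.e i).right_inv hz.1]
  exact (h3.congr_of_eventuallyEq h4.symm).unique (hasFDerivAt_id _)

lemma trL_bij (hi : x ∈ (K.e i).source) (hj : x ∈ (K.e j).source) :
    Function.Bijective (trL K i j x) := by
  refine Function.bijective_iff_has_inverse.2 ⟨trL K j i x, fun v => ?_, fun v => ?_⟩
  · exact DFunLike.congr_fun (trL_comp hi hj) v
  · exact DFunLike.congr_fun (trL_comp hj hi) v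

lemma jacM_tr (hi : x ∈ (K.e i).source) (hj : x ∈ (K.e j).source) :
    jacM (K.e i) (K.e j) x = Jm (trL K i j x) := by
  ext q r
  rw [Jm_apply]
  exact jmat_apply (τ := tr K i j) (tr_an hi hj).differentiableAt q r

lemma w_tr (hi : x ∈ (K.e i).source) (hj : x ∈ (K.e j).source) :
    K.w i (K.e i x) = (Jm (trL K i j x)).transpose * K.w j (K.e j x) *
      (Jm (trL K i j x)).map (starRingEnd ℂ) := by
  rw [K.wch i j x hi hj, jacM_tr hi hj]

lemma wp (hi : x ∈ (K.e i).source) : (K.w i (K.e i x)).PosDef :=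
  K.wpos i _ ((K.e i).map_source hi)

lemma φ_tr (hi : x ∈ (K.e i).source) (hj : x ∈ (K.e j).source) :
    ∀ᶠ y in 𝓝 (K.e i x), Real.exp (-K.φ i y) * ‖K.a i j y‖ ^ 2 =
      Real.exp (-K.φ j (tr K i j y)) := by
  filter_upwards [nhds_two hi hj] with z hz
  have := K.φch i j _ hz.2.1 hz.2.2
  rw [(K.e i).right_inv hz.1] at this
  exact this

lemma φs (hi : x ∈ (K.e i).source) : ContDiffAt ℝ ∞ (K.φ i) (K.e i x) :=
  K.φsm i _ ((K.e i).map_source hi)

lemma cHess_tr (hi : x ∈ (K.e i).source) (hj : x ∈ (K.e j).source) :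
    cHess (K.φ i) (K.e i x) = (Jm (trL K i j x)).transpose * cHess (K.φ j) (K.e j x) *
      (Jm (trL K i j x)).map (starRingEnd ℂ) := by
  have h1 : K.φ i =ᶠ[𝓝 (K.e i x)] fun y => K.φ j (tr K i j y) + Real.log (‖K.a i j y‖ ^ 2) := by
    have h0 : ∀ᶠ y in 𝓝 (K.e i x), K.a i j y ≠ 0 :=
      (a_an hi hj).continuousAt.eventually_ne (a_ne hi hj)
    filter_upwards [φ_tr hi hj, h0] with y hy hy0
    have h2 := congrArg Real.log hy
    rw [Real.log_mul (Real.exp_pos _).ne' (by positivity), Real.log_exp, Real.log_exp] at h2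
    linarith
  have ha := a_an hi hj
  have h3 : ContDiffAt ℝ 2 (fun y => Real.log (‖K.a i j y‖ ^ 2)) (K.e i x) := by
    have hd : ContDiffAt ℝ 2 (K.a i j) (K.e i x) :=
      ((ha.contDiffAt (n := ω)).restrict_scalars ℝ).of_le (by exact le_top)
    refine (hd.norm_sq ℝ).log ?_
    exact pow_ne_zero 2 (norm_ne_zero_iff.2 (a_ne hi hj))
  have h2' : ContDiffAt ℝ 2 (K.φ j) (tr K i j (K.e i x)) := by
    rw [tr_apply hi]; exact (φs hj).of_le (by norm_cast)
  have h4 : ContDiffAt ℝ 2 (fun y => K.φ j (tr K i j y)) (K.e i x) := by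
    have h5 : ContDiffAt ℝ 2 (tr K i j) (K.e i x) :=
      (((tr_an hi hj).contDiffAt (n := ω)).restrict_scalars ℝ).of_le (by exact le_top)
    exact ContDiffAt.comp (K.e i x) (g := K.φ j) h2' h5
  rw [cHess_congr h1, cHess_add h4 h3, cHess_log_norm_sq (ha.contDiffAt (n := ω)) (a_ne hi hj),
    add_zero, cHess_comp h2' ((tr_an hi hj).contDiffAt (n := ω)), tr_apply hi]
  have h6 : jmat (tr K i j) (K.e i x) = Jm (trL K i j x) := jacM_tr hi hj
  rw [h6]

lemma η_tr {η : K.Fm p} (h : K.IsForm η) (hi : x ∈ (K.e i).source) (hj : x ∈ (K.e j).source) :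
    η i =ᶠ[𝓝 (K.e i x)] fun y => K.a i j y • (η j (tr K i j y)).compContinuousLinearMap
      (fderiv ℂ (tr K i j) y) := by
  filter_upwards [nhds_two hi hj] with z hz
  have := h.change i j _ hz.2.1 hz.2.2
  rw [(K.e i).right_inv hz.1] at this
  exact this

lemma η_at {η : K.Fm p} (h : K.IsForm η) (hi : x ∈ (K.e i).source) (hj : x ∈ (K.e j).source) :
    η i (K.e i x) = K.a i j (K.e i x) • (η j (K.e j x)).compContinuousLinearMap (trL K i j x) :=
  h.change i j x hi hj

lemma exp_tr (hi : x ∈ (K.e i).source) (hj : x ∈ (K.e j).source) :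
    ((Real.exp (-K.φ i (K.e i x)) : ℝ) : ℂ) * (K.a i j (K.e i x) * conj (K.a i j (K.e i x))) =
      ((Real.exp (-K.φ j (K.e j x)) : ℝ) : ℂ) := by
  rw [← K.φch i j x hi hj, Complex.mul_conj, Complex.normSq_eq_norm_sq]
  push_cast; rfl

end Vale.Agent.P284.H205.K
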