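import Vale.Agent.P284.H205.K.Den

/-!
# P284 (helper205), K3: `∂_h` and `S` of test forms, `∂_h ∂_h = 0`, additivity, products with functions
-/

open scoped ContDiff Topology ComplexConjugate ComplexOrder ENNReal
open Filter Set MeasureTheory

noncomputable section

namespace Vale.Agent.P284.H205.K

open Vale.Agent.P272.K Vale.Agent.P284.H608.K

section sq

variable {n p : ℕ} {V : Type} [NormedAddCommGroup V] [NormedSpace ℂ V] {z : Cm n}

lemma HasW.clm {W : Type} [NormedAddCommGroup W] [NormedSpace ℂ W] (Λ : V →L[ℂ] W) {η : Cm n → V}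
    {A B : Cm n →L[ℂ] V} (h : HasW η A B z) :
    HasW (fun y => Λ (η y)) (Λ ∘L A) (Λ ∘L B) z := by
  have := HasFDerivAt.comp z (Λ.restrictScalars ℝ).hasFDerivAt h
  refine HasFDerivAt.congr_fderiv this ?_
  ext v; simp

lemma fderiv_dzV {η : Cm n → V} (h : ContDiffAt ℝ 2 η z) (b : Fin n) (u : Cm n) :
    fderiv ℝ (dzV b η) z u = (2 : ℂ)⁻¹ • (fderiv ℝ (fderiv ℝ η) z u (Pi.single b 1) -
      Complex.I • fderiv ℝ (fderiv ℝ η) z u (Pi.single b Complex.I)) := by
  have h1 : DifferentiableAt ℝ (fderiv ℝ η) z :=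
    (h.fderiv_right (m := 1) (by norm_num)).differentiableAt (by simp)
  have h2 : ∀ v : Cm n, HasFDerivAt (fun y => fderiv ℝ η y v)
      ((ContinuousLinearMap.apply ℝ V v).comp (fderiv ℝ (fderiv ℝ η) z)) z := fun v =>
    (ContinuousLinearMap.apply ℝ V v).hasFDerivAt.comp z h1.hasFDerivAt
  have h3 := ((h2 (Pi.single b 1)).sub ((h2 (Pi.single b Complex.I)).const_smul
    Complex.I)).const_smul (2 : ℂ)⁻¹
  have h4 : HasFDerivAt (dzV b η) _ z := h3
  rw [h4.fderiv]
  rfl

lemma dzV_comm {η : Cm n → V} (h : ContDiffAt ℝ 2 η z) (a b : Fin n) :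
    dzV a (dzV b η) z = dzV b (dzV a η) z := by
  have hs : ∀ u v, fderiv ℝ (fderiv ℝ η) z u v = fderiv ℝ (fderiv ℝ η) z v u := by
    intro u v; exact h.isSymmSndFDerivAt (by simp) u v
  have e1 : ∀ a b, dzV a (dzV b η) z = (2 : ℂ)⁻¹ • (fderiv ℝ (dzV b η) z (Pi.single a 1) -
    Complex.I • fderiv ℝ (dzV b η) z (Pi.single a Complex.I)) := fun _ _ => rfl
  rw [e1, e1]
  simp only [fderiv_dzV h]
  rw [hs (Pi.single b 1) (Pi.single a 1), hs (Pi.single b 1) (Pi.single a Complex.I),
    hs (Pi.single b Complex.I) (Pi.single a 1), hs (Pi.single b Complex.I) (Pi.single a Complex.I)]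
  module

lemma pL_sm {η : Cm n → V} (h : ContDiffAt ℝ ∞ η z) : ContDiffAt ℝ ∞ (pL η) z := by
  have h1 : pL η = fun z => ∑ a, (ContinuousLinearMap.proj (R := ℂ) (φ := fun _ : Fin n => ℂ)
    a).smulRight (dzV a η z) := rfl
  rw [h1]
  exact ContDiffAt.sum fun a _ => smulRight_sm _ (dzV_sm h a)

lemma pL_pL_symm {η : Cm n → V} (h : ContDiffAt ℝ ∞ η z) (u v : Cm n) :
    pL (fun y => pL η y u) z v = pL (fun y => pL η y v) z u := by
  have h0 : ∀ u : Cm n, HasW (fun y => pL η y u) (∑ b, u b • pL (dzV b η) z)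
      (∑ b, u b • pB (dzV b η) z) z := by
    intro u
    have h1 : ∀ b, HasW (fun y => u b • dzV b η y) (u b • pL (dzV b η) z) (u b • pB (dzV b η) z) z := by
      intro b
      have := (hasW_of_diff ((dzV_sm h b).differentiableAt (by simp))).clm
        (u b • ContinuousLinearMap.id ℂ V)
      refine HasFDerivAt.congr_fderiv this ?_
      ext v; simp
    have h2 := HasFDerivAt.fun_sum (u := Finset.univ) fun b _ => h1 b
    have h3 : (fun y => pL η y u) = fun y => ∑ b, u b • dzV b η y := by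
      funext y; rw [pL_apply]
    rw [h3]
    refine HasFDerivAt.congr_fderiv h2 ?_
    ext v; simp [Finset.sum_add_distrib]
  rw [(h0 u).pL_eq, (h0 v).pL_eq]
  simp only [_root_.sum_apply, _root_.smul_apply, pL_apply, Finset.smul_sum, smul_smul]
  rw [Finset.sum_comm]
  refine Finset.sum_congr rfl fun a _ => Finset.sum_congr rfl fun b _ => ?_
  rw [dzV_comm (h.of_le (by norm_cast)), mul_comm]

/-- `∂_h ∂_h = 0` -/
theorem dhL_dhL {φ : Cm n → ℝ} {η : Cm n → Af n p} (hφ : ContDiffAt ℝ ∞ φ z)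
    (h : ContDiffAt ℝ ∞ η z) : dhL φ (dhL φ η) z = 0 := by
  have hφ' : ContDiffAt ℝ ∞ (fun y => (φ y : ℂ)) z := ofReal_contDiffAt hφ
  set f : Cm n → ℂ := fun y => (φ y : ℂ) with hf
  set C : Cm n → Cm n →L[ℂ] Af n p := fun y => pL η y - (pL f y).smulRight (η y) with hC
  have h1 : dhL φ η = fun y => ContinuousAlternatingMap.alternatizeUncurryFin (C y) := by
    funext y; rw [dhL_eq]
  have hCs : ContDiffAt ℝ ∞ C z := by
    have e1 : C = fun y => ∑ a, (ContinuousLinearMap.proj (R := ℂ) (φ := fun _ : Fin n => ℂ)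
        a).smulRight (dzV a η y - dzV a f y • η y) := by
      funext y
      ext1 v
      simp only [hC, sub_apply, ContinuousLinearMap.smulRight_apply, pL_apply, _root_.sum_apply,
        ContinuousLinearMap.proj_apply, smul_sub, Finset.sum_sub_distrib, Finset.sum_smul,
        smul_smul, smul_eq_mul]
    rw [e1]
    exact ContDiffAt.sum fun a _ => smulRight_sm _ ((dzV_sm h a).sub
      (ContDiffAt.fun_smul (dzV_sm hφ' a) h))
  have hCd : DifferentiableAt ℝ C z := hCs.differentiableAt (by simp)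
  have h2 := HasW.clm (V := Cm n →L[ℂ] Af n p) (W := Af n (p + 1))
    (ContinuousAlternatingMap.alternatizeUncurryFinCLM ℂ (Cm n) ℂ (n := p)) (hasW_of_diff hCd)
  rw [dhL_eq, h1]
  have h3 : pL (fun y => ContinuousAlternatingMap.alternatizeUncurryFin (C y)) z =
      ContinuousAlternatingMap.alternatizeUncurryFinCLM ℂ (Cm n) ℂ (n := p) ∘L pL C z := h2.pL_eq
  rw [h3]
  have h4 : (ContinuousAlternatingMap.alternatizeUncurryFinCLM ℂ (Cm n) ℂ (n := p) ∘L pL C z) -
      (pL f z).smulRight (ContinuousAlternatingMap.alternatizeUncurryFin (C z)) =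
      ContinuousAlternatingMap.alternatizeUncurryFinCLM ℂ (Cm n) ℂ (n := p) ∘L
        (pL C z - (pL f z).smulRight (C z)) := by
    ext1 v
    simp only [sub_apply, ContinuousLinearMap.comp_apply, ContinuousLinearMap.smulRight_apply,
      map_sub, map_smul, ContinuousAlternatingMap.alternatizeUncurryFinCLM_apply]
  rw [h4]
  refine ContinuousAlternatingMap.alternatizeUncurryFin_alternatizeUncurryFinCLM_comp_of_symmetric
    fun v u => ?_
  have hηd : DifferentiableAt ℝ η z := h.differentiableAt (by simp)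
  have h5 : ∀ u v, pL C z v u = pL (fun y => pL η y u) z v -
      ((pL (fun y => pL f y u) z v) • η z + pL f z u • pL η z v) := by
    intro u v
    have e1 := HasW.clm (V := Cm n →L[ℂ] Af n p) (W := Af n p)
      (ContinuousLinearMap.apply ℂ (Af n p) u) (hasW_of_diff hCd)
    have e2 : pL (fun y => C y u) z v = pL C z v u := by
      have := DFunLike.congr_fun e1.pL_eq v
      exact this
    have e3 : HasW (fun y => pL η y u) _ _ z := HasW.clm (V := Cm n →L[ℂ] Af n p) (W := Af n p)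
      (ContinuousLinearMap.apply ℂ _ u) (hasW_of_diff ((pL_sm h).differentiableAt (by simp)))
    have e4 : HasW (fun y => pL f y u) _ _ z := HasW.clm (V := Cm n →L[ℂ] ℂ) (W := ℂ)
      (ContinuousLinearMap.apply ℂ _ u) (hasW_of_diff ((pL_sm hφ').differentiableAt (by simp)))
    have e5 := e4.smul (hasW_of_diff hηd)
    have e6 : HasW (fun y => C y u) (pL (fun y => pL η y u) z -
        ((pL (fun y => pL f y u) z).smulRight (η z) + pL f z u • pL η z))
        (pB (fun y => pL η y u) z -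
        ((pB (fun y => pL f y u) z).smulRight (η z) + pL f z u • pB η z)) z := by
      rw [e3.pL_eq, e3.pB_eq, e4.pL_eq, e4.pB_eq]
      refine HasFDerivAt.congr_fderiv (HasFDerivAt.sub e3 e5) ?_
      ext v; simp; ring
    rw [← e2, e6.pL_eq]
    simp
  have hC1 : ∀ u, C z u = pL η z u - pL f z u • η z := fun u => by
    simp [hC]
  simp only [sub_apply, ContinuousLinearMap.smulRight_apply, _root_.smul_apply, h5, hC1]
  rw [pL_pL_symm h u v, pL_pL_symm hφ' u v]
  module

end sq

section lin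

variable {n p : ℕ} {z : Cm n}

lemma dhL_congr {φ : Cm n → ℝ} {η τ : Cm n → Af n p} (h : η =ᶠ[𝓝 z] τ) :
    dhL φ η z = dhL φ τ z := by
  have h1 : ∀ a, dzV a η z = dzV a τ z := fun a => by unfold dzV; rw [h.fderiv_eq]
  unfold dhL
  simp only [h1, h.self_of_nhds]

lemma dbV_congr {V : Type} [NormedAddCommGroup V] [NormedSpace ℂ V] {η τ : Cm n → V}
    (h : η =ᶠ[𝓝 z] τ) (b : Fin n) : dbV b η z = dbV b τ z := by
  unfold dbV; rw [h.fderiv_eq]

lemma SL_congr {w : Cm n → Matrix (Fin n) (Fin n) ℂ} {η τ : Cm n → Af n (p + 1)}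
    (h : η =ᶠ[𝓝 z] τ) : SL w η z = SL w τ z := by
  unfold SL
  simp only [dbV_congr h]

lemma dbV_zero {V : Type} [NormedAddCommGroup V] [NormedSpace ℂ V] (b : Fin n) :
    dbV b (fun _ : Cm n => (0 : V)) z = 0 := by
  unfold dbV; simp

lemma dzV_zero {V : Type} [NormedAddCommGroup V] [NormedSpace ℂ V] (b : Fin n) :
    dzV b (fun _ : Cm n => (0 : V)) z = 0 := by
  unfold dzV; simp

lemma pL_zero {V : Type} [NormedAddCommGroup V] [NormedSpace ℂ V] :
    pL (fun _ : Cm n => (0 : V)) z = 0 := by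
  ext v; rw [pL_apply]; simp [dzV_zero]

lemma dhL_zero (φ : Cm n → ℝ) : dhL φ (fun _ => (0 : Af n p)) z = 0 := by
  rw [dhL_eq, pL_zero]
  have h1 : (0 : Cm n →L[ℂ] Af n p) - (pL (fun y => (φ y : ℂ)) z).smulRight (0 : Af n p) = 0 := by
    ext v w; simp
  rw [h1]
  exact map_zero (ContinuousAlternatingMap.alternatizeUncurryFinCLM ℂ (Cm n) ℂ (n := p))

lemma SL_zero (w : Cm n → Matrix (Fin n) (Fin n) ℂ) :
    SL w (fun _ => (0 : Af n (p + 1))) z = 0 := by
  unfold SL Lam
  simp [dbV_zero, ContinuousAlternatingMap.curryLeft_zero]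

lemma dbV_add {V : Type} [NormedAddCommGroup V] [NormedSpace ℂ V] {η τ : Cm n → V}
    (h : DifferentiableAt ℝ η z) (h' : DifferentiableAt ℝ τ z) (b : Fin n) :
    dbV b (fun y => η y + τ y) z = dbV b η z + dbV b τ z := by
  have := (hasW_of_diff h).add (hasW_of_diff h')
  rw [this.dbV, (hasW_of_diff h).dbV, (hasW_of_diff h').dbV]; rfl

lemma dhL_add {φ : Cm n → ℝ} {η τ : Cm n → Af n p}
    (h : DifferentiableAt ℝ η z) (h' : DifferentiableAt ℝ τ z) :
    dhL φ (fun y => η y + τ y) z = dhL φ η z + dhL φ τ z := by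
  have := (hasW_of_diff h).add (hasW_of_diff h')
  rw [dhL_eq, dhL_eq, dhL_eq, this.pL_eq, ← ContinuousAlternatingMap.alternatizeUncurryFin_add]
  congr 1
  ext v w; simp; ring

lemma Lam_add (w : Matrix (Fin n) (Fin n) ℂ) (T S : Fin n → Af n (p + 1)) :
    Lam w (fun b => T b + S b) = Lam w T + Lam w S := by
  unfold Lam
  simp only [ContinuousAlternatingMap.curryLeft_add, _root_.add_apply, smul_add,
    Finset.sum_add_distrib]

lemma SL_add {w : Cm n → Matrix (Fin n) (Fin n) ℂ} {η τ : Cm n → Af n (p + 1)}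
    (h : DifferentiableAt ℝ η z) (h' : DifferentiableAt ℝ τ z) :
    SL w (fun y => η y + τ y) z = SL w η z + SL w τ z := by
  unfold SL
  simp only [dbV_add h h']
  rw [Lam_add]; abel

end lin

section test

variable {n p : ℕ} {M : Type} [TopologicalSpace M] [T2Space M] [MeasurableSpace M] {K : KA n M}
  {i j : K.I} {x : M}

omit [T2Space M] in
lemma off_ev {C : Set M} (hC : IsClosed C) {η : K.Fm p} (h : K.Off C η)
    (hi : x ∈ (K.e i).source) (hx : x ∉ C) : η i =ᶠ[𝓝 (K.e i x)] fun _ => 0 := by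
  have h2 : ContinuousAt (K.e i).symm (K.e i x) :=
    (K.e i).continuousAt_symm ((K.e i).map_source hi)
  have h3 : ∀ᶠ z in 𝓝 (K.e i x), (K.e i).symm z ∉ C := by
    refine h2.eventually (p := fun y => y ∉ C) ?_
    rw [(K.e i).left_inv hi]
    exact hC.isOpen_compl.mem_nhds hx
  filter_upwards [h3, (K.e i).open_target.mem_nhds ((K.e i).map_source hi)] with z hz hz'
  have := h i _ ((K.e i).map_target hz') hz
  rwa [(K.e i).right_inv hz'] at this

omit [T2Space M] in
lemma dh_off' {C : Set M} (hC : IsClosed C) {η : K.Fm p} (h : K.Off C η) : K.Off C (K.dh η) := by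
  intro i x hi hx
  rw [dh_at η ((K.e i).map_source hi), dhL_congr (off_ev hC h hi hx), dhL_zero]

omit [T2Space M] in
lemma S_off' {C : Set M} (hC : IsClosed C) {η : K.Fm (p + 1)} (h : K.Off C η) :
    K.Off C (K.S η) := by
  intro i x hi hx
  rw [S_at η ((K.e i).map_source hi), SL_congr (off_ev hC h hi hx), SL_zero]

theorem dh_test {η : K.Fm p} (h : K.Test η) : K.Test (K.dh η) := by
  obtain ⟨C, hC, hC'⟩ := h.supp
  exact ⟨(dh_form h.form h.smooth).1, (dh_form h.form h.smooth).2, C, hC,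
    dh_off' hC.isClosed hC'⟩

theorem S_test {η : K.Fm (p + 1)} (h : K.Test η) : K.Test (K.S η) := by
  obtain ⟨C, hC, hC'⟩ := h.supp
  exact ⟨(S_form h.form h.smooth).1, (S_form h.form h.smooth).2, C, hC,
    S_off' hC.isClosed hC'⟩

omit [T2Space M] in
theorem dh_dh {η : K.Fm p} (h : K.Smooth η) : K.dh (K.dh η) = 0 := by
  funext i z
  by_cases hz : z ∈ (K.e i).target
  · rw [dh_at _ hz, dhL_congr (dh_ev η hz), dhL_dhL (K.φsm i z hz) (h i z hz)]; rfl
  · rw [dh_off _ hz]; rfl

end test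

end Vale.Agent.P284.H205.K
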