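import Vale.Agent.P284.H608.K.Spec
import Vale.Agent.P272.K.Inv.Consts
import Mathlib.Analysis.Calculus.FDeriv.ContinuousAlternatingMap

/-!
# P284 (helper205), K3: real derivatives split in a linear and an antilinear part
-/

open scoped ContDiff Topology ComplexConjugate ComplexOrder ENNReal
open Filter Set MeasureTheory

noncomputable section

namespace Vale.Agent.P284.H205.K

open Vale.Agent.P272.K Vale.Agent.P284.H608.K

variable {n p : ℕ} {V : Type} [NormedAddCommGroup V] [NormedSpace ℂ V]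

/-- conjugation of `ℂⁿ` -/
def cjm (n : ℕ) : Cm n →L[ℝ] Cm n :=
  ContinuousLinearMap.pi fun i =>
    (Complex.conjCLE : ℂ →L[ℝ] ℂ).comp (ContinuousLinearMap.proj (R := ℝ) (φ := fun _ : Fin n => ℂ) i)

@[simp] lemma cjm_apply (v : Cm n) (i : Fin n) : cjm n v i = conj (v i) := by
  simp [cjm]

lemma cjm_smul (c : ℂ) (v : Cm n) : cjm n (c • v) = conj c • cjm n v := by
  funext i; simp

@[simp] lemma cjm_cjm (v : Cm n) : cjm n (cjm n v) = v := by
  funext i; simp

@[simp] lemma cjm_single (i : Fin n) (c : ℂ) :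
    cjm n (Pi.single i c : Cm n) = Pi.single i (conj c) := by
  funext j
  rw [cjm_apply]
  by_cases h : j = i
  · subst h; simp
  · simp [h]

/-- `η` has at `z` the real derivative `v ↦ A v + B (conj v)` -/
def HasW (η : Cm n → V) (A B : Cm n →L[ℂ] V) (z : Cm n) : Prop :=
  HasFDerivAt η (A.restrictScalars ℝ + (B.restrictScalars ℝ).comp (cjm n)) z

lemma single_I (a : Fin n) : (Pi.single a Complex.I : Cm n) = Complex.I • Pi.single a 1 := by
  rw [← Pi.single_smul]; simp

lemma HasW.fd {η : Cm n → V} {A B : Cm n →L[ℂ] V} {z : Cm n} (h : HasW η A B z) (v : Cm n) :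
    fderiv ℝ η z v = A v + B (cjm n v) := by
  rw [HasFDerivAt.fderiv h]; rfl

lemma HasW.differentiableAt {η : Cm n → V} {A B : Cm n →L[ℂ] V} {z : Cm n} (h : HasW η A B z) :
    DifferentiableAt ℝ η z := HasFDerivAt.differentiableAt h

lemma II_smul (x y : V) : Complex.I • (Complex.I • x + (-Complex.I) • y) = -x + y := by
  rw [smul_add, smul_smul, smul_smul, mul_neg, Complex.I_mul_I]; simp

lemma HasW.dzV {η : Cm n → V} {A B : Cm n →L[ℂ] V} {z : Cm n} (h : HasW η A B z) (a : Fin n) :
    dzV a η z = A (Pi.single a 1) := by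
  unfold Vale.Agent.P284.H608.K.dzV
  rw [h.fd, h.fd, cjm_single, cjm_single, Complex.conj_I, single_I, map_smul, map_one,
    show (Pi.single a (-Complex.I) : Cm n) = (-Complex.I) • Pi.single a 1 by
      rw [← Pi.single_smul]; simp, map_smul, II_smul]
  module

lemma HasW.dbV {η : Cm n → V} {A B : Cm n →L[ℂ] V} {z : Cm n} (h : HasW η A B z) (a : Fin n) :
    dbV a η z = B (Pi.single a 1) := by
  unfold Vale.Agent.P284.H608.K.dbV
  rw [h.fd, h.fd, cjm_single, cjm_single, Complex.conj_I, single_I, map_smul, map_one,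
    show (Pi.single a (-Complex.I) : Cm n) = (-Complex.I) • Pi.single a 1 by
      rw [← Pi.single_smul]; simp, map_smul, II_smul]
  module

/-- the linear part of the derivative -/
def pL (η : Cm n → V) (z : Cm n) : Cm n →L[ℂ] V :=
  ∑ a, (ContinuousLinearMap.proj (R := ℂ) (φ := fun _ : Fin n => ℂ) a).smulRight (dzV a η z)

/-- the antilinear part of the derivative -/
def pB (η : Cm n → V) (z : Cm n) : Cm n →L[ℂ] V :=
  ∑ a, (ContinuousLinearMap.proj (R := ℂ) (φ := fun _ : Fin n => ℂ) a).smulRight (dbV a η z)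

lemma pL_apply (η : Cm n → V) (z v : Cm n) : pL η z v = ∑ a, v a • dzV a η z := by
  simp [pL]

lemma pB_apply (η : Cm n → V) (z v : Cm n) : pB η z v = ∑ a, v a • dbV a η z := by
  simp [pB]

lemma vec_eq (v : Cm n) : v = ∑ a, v a • (Pi.single a (1 : ℂ) : Cm n) := by
  funext j
  simp only [Finset.sum_apply, Pi.smul_apply]
  rw [Finset.sum_eq_single j]
  · simp
  · intro b _ hb; simp [hb.symm]
  · simp

lemma clm_eq {A : Cm n →L[ℂ] V} (v : Cm n) : A v = ∑ a, v a • A (Pi.single a 1) := by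
  conv_lhs => rw [vec_eq v]
  rw [map_sum]
  exact Finset.sum_congr rfl fun a _ => map_smul _ _ _

lemma clm_ext {A B : Cm n →L[ℂ] V} (h : ∀ a, A (Pi.single a 1) = B (Pi.single a 1)) : A = B := by
  ext v
  rw [clm_eq (A := A), clm_eq (A := B)]
  exact Finset.sum_congr rfl fun a _ => by rw [h a]

lemma HasW.pL_eq {η : Cm n → V} {A B : Cm n →L[ℂ] V} {z : Cm n} (h : HasW η A B z) :
    pL η z = A := by
  ext v
  rw [pL_apply, clm_eq (A := A)]
  exact Finset.sum_congr rfl fun a _ => by rw [h.dzV]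

lemma HasW.pB_eq {η : Cm n → V} {A B : Cm n →L[ℂ] V} {z : Cm n} (h : HasW η A B z) :
    pB η z = B := by
  ext v
  rw [pB_apply, clm_eq (A := B)]
  exact Finset.sum_congr rfl fun a _ => by rw [h.dbV]

lemma key_rs (x y : V) (r s : ℝ) (c c' : ℂ) (h : c = r + s * Complex.I)
    (h' : c' = r - s * Complex.I) :
    r • x + s • y = c • ((2 : ℂ)⁻¹ • (x - Complex.I • y)) + c' • ((2 : ℂ)⁻¹ • (x + Complex.I • y)) := by
  rw [h, h', ← Complex.coe_smul, ← Complex.coe_smul]
  match_scalars
  · ring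
  · linear_combination (s : ℂ) * Complex.I_mul_I

/-- every real differentiable function has this form -/
lemma hasW_of_diff {η : Cm n → V} {z : Cm n} (h : DifferentiableAt ℝ η z) :
    HasW η (pL η z) (pB η z) z := by
  have h1 : fderiv ℝ η z = (pL η z).restrictScalars ℝ + ((pB η z).restrictScalars ℝ).comp (cjm n) := by
    ext v
    have hv : v = ∑ i, ((v i).re • (Pi.single i (1 : ℂ) : Cm n) +
        (v i).im • (Pi.single i Complex.I : Cm n)) := by
      funext j
      simp only [Finset.sum_apply, Pi.add_apply, Pi.smul_apply]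
      rw [Finset.sum_eq_single j]
      · simp [Complex.re_add_im]
      · intro b _ hb; simp [hb.symm]
      · simp
    show _ = pL η z v + pB η z (cjm n v)
    rw [pL_apply, pB_apply, ← Finset.sum_add_distrib]
    conv_lhs => rw [hv]
    rw [map_sum]
    refine Finset.sum_congr rfl fun i _ => ?_
    rw [map_add, map_smul, map_smul, cjm_apply]
    unfold Vale.Agent.P284.H608.K.dzV Vale.Agent.P284.H608.K.dbV
    set x := fderiv ℝ η z (Pi.single i 1)
    set y := fderiv ℝ η z (Pi.single i Complex.I)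
    have h2 : conj (v i) = ((v i).re : ℂ) - (v i).im * Complex.I := by
      apply Complex.ext <;> simp
    have h3 : v i = ((v i).re : ℂ) + (v i).im * Complex.I := (Complex.re_add_im _).symm
    exact key_rs x y _ _ _ _ h3 h2
  unfold HasW
  rw [← h1]
  exact h.hasFDerivAt

lemma HasW.of_holo {η : Cm n → V} {A : Cm n →L[ℂ] V} {z : Cm n} (h : HasFDerivAt η A z) :
    HasW η A 0 z := by
  have := h.restrictScalars ℝ
  refine HasFDerivAt.congr_fderiv this ?_
  ext v; simp

lemma HasW.congr {η ζ : Cm n → V} {A B : Cm n →L[ℂ] V} {z : Cm n} (h : HasW η A B z)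
    (h' : ζ =ᶠ[𝓝 z] η) : HasW ζ A B z := HasFDerivAt.congr_of_eventuallyEq h h'

lemma HasW.add {η ζ : Cm n → V} {A B A' B' : Cm n →L[ℂ] V} {z : Cm n} (h : HasW η A B z)
    (h' : HasW ζ A' B' z) : HasW (fun y => η y + ζ y) (A + A') (B + B') z := by
  have := HasFDerivAt.add h h'
  refine HasFDerivAt.congr_fderiv this ?_
  ext v; simp; abel

/-- product with a function -/
lemma HasW.smul {a : Cm n → ℂ} {P Q : Cm n →L[ℂ] ℂ} {η : Cm n → V} {A B : Cm n →L[ℂ] V} {z : Cm n}
    (ha : HasW a P Q z) (h : HasW η A B z) :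
    HasW (fun y => a y • η y) (P.smulRight (η z) + a z • A) (Q.smulRight (η z) + a z • B) z := by
  have := HasFDerivAt.smul ha h
  refine HasFDerivAt.congr_fderiv this ?_
  ext v; simp; module

/-- the conjugate of a linear map -/
def cjL (L : Cm n →L[ℂ] Cm n) : Cm n →L[ℂ] Cm n where
  toFun v := cjm n (L (cjm n v))
  map_add' u v := by simp
  map_smul' c v := by
    rw [cjm_smul, map_smul, cjm_smul]; simp
  cont := (cjm n).continuous.comp (L.continuous.comp (cjm n).continuous)

@[simp] lemma cjL_apply (L : Cm n →L[ℂ] Cm n) (v : Cm n) : cjL L v = cjm n (L (cjm n v)) := rfl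

lemma HasW.comp_holo {η : Cm n → V} {A B : Cm n →L[ℂ] V} {F : Cm n → Cm n} {L : Cm n →L[ℂ] Cm n}
    {z : Cm n} (h : HasW η A B (F z)) (hF : HasFDerivAt F L z) :
    HasW (fun y => η (F y)) (A.comp L) (B.comp (cjL L)) z := by
  have := HasFDerivAt.comp z h (hF.restrictScalars ℝ)
  refine HasFDerivAt.congr_fderiv this ?_
  ext v; simp

open ContinuousAlternatingMap in
lemma HasW.compCLM {η : Cm n → Af n p} {A B : Cm n →L[ℂ] Af n p} {F : Cm n → Cm n →L[ℂ] Cm n}
    {D : Cm n →L[ℂ] Cm n →L[ℂ] Cm n} {z : Cm n} (h : HasW η A B z) (hF : HasFDerivAt F D z) :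
    HasW (fun y => (η y).compContinuousLinearMap (F y))
      (compContinuousLinearMapCLM (F z) ∘L A + (η z).fderivCompContinuousLinearMap (F z) ∘L D)
      (compContinuousLinearMapCLM (F z) ∘L B) z := by
  have h1 := (ContinuousAlternatingMap.hasStrictFDerivAt_compContinuousLinearMap (𝕜 := ℂ)
    (η z, F z)).hasFDerivAt.restrictScalars ℝ
  have h2 : HasFDerivAt (fun y => (η y, F y)) _ z := HasFDerivAt.prodMk h (hF.restrictScalars ℝ)
  have := HasFDerivAt.comp z (g := fun fg : Af n p × (Cm n →L[ℂ] Cm n) =>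
    fg.1.compContinuousLinearMap fg.2) h1 h2
  refine HasFDerivAt.congr_fderiv this ?_
  ext v; simp; ring

end Vale.Agent.P284.H205.K
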